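import Vale.Agent.P234.H936.Defs
import Mathlib.Topology.ContinuousMap.Bounded.ArzelaAscoli
import Mathlib.Topology.ContinuousMap.Bounded.Normed
import Mathlib.MeasureTheory.Integral.Bochner.Set
import Mathlib.MeasureTheory.Function.LocallyIntegrable
import Mathlib.MeasureTheory.Measure.Typeclasses.Probability

/-! Existence of a Kantorovich potential on a compact metric space. -/

open Set Filter MeasureTheory
open scoped Topology ENNReal BoundedContinuousFunction

namespace Vale.Agent.N234

open Vale.Agent.P234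

variable {M : Type*} [MetricSpace M] [CompactSpace M]

/-- Lipschitz with constant the diameter of the space. -/
def D1Lip (φ : M → ℝ) : Prop :=
  ∀ x x' : M, φ x - φ x' ≤ Metric.diam (univ : Set M) * dist x x'

/-- The `c`-transform. -/
noncomputable def D1T (φ : M → ℝ) (y : M) : ℝ := ⨅ x, (φ x + cost x y)

lemma D1_dist_le (x y : M) : dist x y ≤ Metric.diam (univ : Set M) :=
  Metric.dist_le_diam_of_mem isCompact_univ.isBounded (mem_univ x) (mem_univ y)

lemma D1_cost_sub (x x' y : M) :
    cost x' y - cost x y ≤ Metric.diam (univ : Set M) * dist x x' := by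
  have h2 := D1_dist_le x y
  have h3 := D1_dist_le x' y
  have h4 : dist x' y ≤ dist x x' + dist x y := by
    have := dist_triangle x' x y
    rwa [dist_comm x' x] at this
  have h5 : 0 ≤ dist x y := dist_nonneg
  have h6 : 0 ≤ dist x' y := dist_nonneg
  have h7 : 0 ≤ dist x x' := dist_nonneg
  rw [cost, cost]
  linarith only [mul_nonneg (sub_nonneg.mpr h4) (add_nonneg h5 h6),
    mul_nonneg h7 (sub_nonneg.mpr h3), mul_nonneg h7 (sub_nonneg.mpr h2)]

omit [CompactSpace M] in
lemma D1_cost_comm (x y : M) : cost x y = cost y x := by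
  rw [cost, cost, dist_comm]

omit [CompactSpace M] in
lemma D1_cost_cont : Continuous (fun p : M × M => cost p.1 p.2) := by
  unfold cost
  fun_prop

lemma D1_lip_of_cconvex {ψ : M → ℝ} (h : CConvex ψ) : D1Lip ψ := by
  intro x x'
  obtain ⟨S, hS⟩ := h
  have h1 : ψ x ≤ ψ x' + Metric.diam (univ : Set M) * dist x x' := by
    refine (hS x).2 ?_
    rintro _ ⟨p, hp, rfl⟩
    have h2 := (hS x').1 ⟨p, hp, rfl⟩
    have h3 := D1_cost_sub x x' p.2
    simp only at h2 ⊢
    linarith only [h2, h3]
  linarith only [h1]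

omit [CompactSpace M] in
lemma D1Lip.dist_le {ψ : M → ℝ} (h : D1Lip ψ) (x x' : M) :
    dist (ψ x) (ψ x') ≤ Metric.diam (univ : Set M) * dist x x' := by
  rw [Real.dist_eq, abs_le]
  constructor
  · have := h x' x
    rw [dist_comm] at this
    linarith only [this]
  · exact h x x'

omit [CompactSpace M] in
lemma D1Lip.continuous {ψ : M → ℝ} (h : D1Lip ψ) : Continuous ψ := by
  have : LipschitzWith (Real.toNNReal (Metric.diam (univ : Set M))) ψ := by
    apply LipschitzWith.of_dist_le_mul
    intro x x'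
    rw [Real.coe_toNNReal _ Metric.diam_nonneg]
    exact h.dist_le x x'
  exact this.continuous

lemma D1T_le {φ : M → ℝ} (h : Continuous φ) (x y : M) : D1T φ y ≤ φ x + cost x y := by
  have hc : Continuous fun x => φ x + cost x y :=
    h.add (D1_cost_cont.comp (continuous_id.prodMk continuous_const))
  exact ciInf_le (isCompact_range hc).bddBelow x

omit [CompactSpace M] in
lemma D1_le_T [Nonempty M] {φ : M → ℝ} {a : ℝ} {y : M} (h : ∀ x, a ≤ φ x + cost x y) :
    a ≤ D1T φ y := le_ciInf h

lemma D1T_lip [Nonempty M] {φ : M → ℝ} (h : Continuous φ) : D1Lip (D1T φ) := by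
  intro y y'
  have : D1T φ y - Metric.diam (univ : Set M) * dist y y' ≤ D1T φ y' := by
    refine D1_le_T fun x => ?_
    have h1 := D1T_le h x y
    have h2 := D1_cost_sub y' y x
    rw [dist_comm, D1_cost_comm y x, D1_cost_comm y' x] at h2
    linarith only [h1, h2]
  linarith only [this]

lemma D1T_mono [Nonempty M] {φ φ' : M → ℝ} (h : Continuous φ) {a : ℝ}
    (hle : ∀ x, φ x ≤ φ' x + a) (y : M) : D1T φ y ≤ D1T φ' y + a := by
  have : D1T φ y - a ≤ D1T φ' y := by
    refine D1_le_T fun x => ?_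
    linarith only [D1T_le h x y, hle x]
  linarith only [this]

omit [CompactSpace M] in
/-- A supremum of mountains. -/
lemma D1_sup {ι : Type*} [Nonempty ι] (a : ι → ℝ) (f : ι → M) {u : M → ℝ}
    (hu : ∀ x i, a i - cost x (f i) ≤ u x) :
    ∃ g : M → ℝ, CConvex g ∧ (∀ x i, a i - cost x (f i) ≤ g x) ∧
      ∀ x b, (∀ i, a i - cost x (f i) ≤ b) → g x ≤ b := by
  have hb : ∀ x, BddAbove (range fun i => a i - cost x (f i)) := fun x =>
    ⟨u x, by rintro _ ⟨i, rfl⟩; exact hu x i⟩
  refine ⟨fun x => ⨆ i, (a i - cost x (f i)), ⟨range fun i => (a i, f i), fun x => ?_⟩,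
    fun x i => le_ciSup (hb x) i, fun x b h => ciSup_le h⟩
  rw [← range_comp]
  exact isLUB_ciSup (hb x)

variable [MeasurableSpace M] [BorelSpace M]

/-- The dual functional. -/
noncomputable def D1K (μ ν : Measure M) (φ : M → ℝ) : ℝ := ∫ x, φ x ∂μ - ∫ y, D1T φ y ∂ν

lemma D1_int {φ : M → ℝ} (h : Continuous φ) (μ : Measure M) [IsFiniteMeasure μ] :
    Integrable φ μ :=
  h.integrable_of_hasCompactSupport (HasCompactSupport.of_compactSpace φ)

lemma D1_int_le {φ φ' : M → ℝ} (h : Continuous φ) (h' : Continuous φ') (μ : Measure M)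
    [IsProbabilityMeasure μ] {a : ℝ} (hle : ∀ x, φ x ≤ φ' x + a) :
    ∫ x, φ x ∂μ ≤ ∫ x, φ' x ∂μ + a := by
  have := integral_mono (D1_int h μ) ((D1_int h' μ).add (integrable_const a)) hle
  rwa [integral_add' (D1_int h' μ) (integrable_const a), integral_const, probReal_univ,
    one_smul] at this

lemma D1K_le [Nonempty M] (μ ν : Measure M) [IsProbabilityMeasure μ] [IsProbabilityMeasure ν]
    {φ φ' : M → ℝ} (h : Continuous φ) (h' : Continuous φ') {a b : ℝ}
    (h1 : ∀ x, φ x ≤ φ' x + a) (h2 : ∀ x, φ' x ≤ φ x + b) :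
    D1K μ ν φ ≤ D1K μ ν φ' + (a + b) := by
  have h3 := D1_int_le h h' μ h1
  have h4 := D1_int_le (D1T_lip h').continuous (D1T_lip h).continuous ν (D1T_mono h' h2)
  unfold D1K
  linarith only [h3, h4]

/-- The dual functional has a minimiser among the Lipschitz functions. -/
lemma D1_exists_min [Nonempty M] (μ ν : Measure M) [IsProbabilityMeasure μ]
    [IsProbabilityMeasure ν] :
    ∃ φ : M → ℝ, D1Lip φ ∧ ∀ φ' : M → ℝ, D1Lip φ' → D1K μ ν φ ≤ D1K μ ν φ' := by
  obtain ⟨x₀⟩ := ‹Nonempty M›
  set L := Metric.diam (univ : Set M) with hL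
  have hL0 : 0 ≤ L := Metric.diam_nonneg
  set A : Set (M →ᵇ ℝ) := {f | D1Lip f ∧ f x₀ = 0} with hA
  have hcl : IsClosed A := by
    have h1 : ∀ x : M, Continuous fun f : M →ᵇ ℝ => f x := fun x => continuous_eval_const x
    have h2 : A = (⋂ x, ⋂ x', {f : M →ᵇ ℝ | f x - f x' ≤ L * dist x x'}) ∩ {f | f x₀ = 0} := by
      ext f
      simp only [hA, D1Lip, mem_ofPred_eq, mem_inter_iff, mem_iInter, hL]
    rw [h2]
    exact (isClosed_iInter fun x => isClosed_iInter fun x' =>
      isClosed_le ((h1 x).sub (h1 x')) continuous_const).inter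
        (isClosed_eq (h1 x₀) continuous_const)
  have hA2 : IsCompact A := by
    refine BoundedContinuousFunction.arzela_ascoli₂ (Metric.closedBall 0 (L * L))
      (isCompact_closedBall _ _) A hcl (fun f x hf => ?_) ?_
    · rw [Metric.mem_closedBall, ← hf.2]
      exact (hf.1.dist_le x x₀).trans
        (mul_le_mul_of_nonneg_left (D1_dist_le x x₀) hL0)
    · refine Metric.equicontinuous_of_continuity_modulus (fun t => L * t) ?_ _
        fun x y f => f.2.1.dist_le x y
      have : Continuous fun t : ℝ => L * t := by fun_prop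
      simpa using this.tendsto 0
  have hK : Continuous fun f : M →ᵇ ℝ => D1K μ ν f := by
    have h1 : ∀ f g : M →ᵇ ℝ, ∀ x, f x ≤ g x + dist f g := fun f g x => by
      have := (abs_le.1 (Real.dist_eq _ _ ▸ BoundedContinuousFunction.dist_coe_le_dist
        (f := f) (g := g) x)).2
      linarith only [this]
    refine (LipschitzWith.of_le_add_mul 2 fun f g => ?_).continuous
    have := D1K_le μ ν f.continuous g.continuous (h1 f g) (h1 g f)
    rw [dist_comm g f] at this
    push_cast
    linarith only [this]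
  have hne : A.Nonempty := by
    refine ⟨0, fun x x' => ?_, rfl⟩
    simpa using mul_nonneg hL0 dist_nonneg
  obtain ⟨f, hf, hmin⟩ := hA2.exists_isMinOn hne hK.continuousOn
  refine ⟨f, hf.1, fun φ hφ => ?_⟩
  have hc : Continuous fun x => φ x - φ x₀ := hφ.continuous.sub continuous_const
  set g : M →ᵇ ℝ := BoundedContinuousFunction.mkOfCompact ⟨_, hc⟩ with hg
  have hgx : ∀ x, g x = φ x - φ x₀ := fun _ => rfl
  have hgA : g ∈ A := by
    refine ⟨fun x x' => ?_, by rw [hgx, sub_self]⟩
    rw [hgx, hgx]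
    linarith only [hφ x x']
  have h1 : D1K μ ν f ≤ D1K μ ν g := hmin hgA
  have h2 := D1K_le μ ν g.continuous hφ.continuous (a := -φ x₀) (b := φ x₀)
    (fun x => by rw [hgx]; linarith only []) (fun x => by rw [hgx]; linarith only [])
  linarith only [h1, h2]

/-- First variation at a minimiser. -/
lemma D1_var [Nonempty M] (μ ν : Measure M) [IsProbabilityMeasure μ] [IsProbabilityMeasure ν]
    {φ : M → ℝ} (hφ : D1Lip φ) (hmin : ∀ φ' : M → ℝ, D1Lip φ' → D1K μ ν φ ≤ D1K μ ν φ')
    {B A : Set M} (hB : IsClosed B) (hne : B.Nonempty) (hA : IsClosed A) {t : ℝ} (ht : 0 < t)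
    (hAB : ∀ x, ∀ y ∈ B, φ x ≤ D1T φ y - cost x y + t → x ∈ A) : ν B ≤ μ A := by
  have : Nonempty B := hne.to_subtype
  have hc := hφ.continuous
  have hu : ∀ (x : M) (y : B), D1T φ y + t - cost x y ≤ φ x + t := fun x y => by
    linarith only [D1T_le hc x y]
  obtain ⟨g, hg, hg1, hg2⟩ := D1_sup (fun y : B => D1T φ y + t) (fun y : B => (y : M))
    (u := fun x => φ x + t) hu
  have hgl := D1_lip_of_cconvex hg
  have hp : D1Lip fun x => max (φ x) (g x) := by
    intro x x'
    have h1 := le_max_left (φ x') (g x')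
    have h2 := le_max_right (φ x') (g x')
    have : max (φ x) (g x) ≤ max (φ x') (g x') + Metric.diam (univ : Set M) * dist x x' :=
      max_le (by linarith only [h1, hφ x x']) (by linarith only [h2, hgl x x'])
    linarith only [this]
  have hpc := hp.continuous
  have h1 : ∀ x, max (φ x) (g x) ≤ φ x + A.indicator (fun _ => t) x := by
    intro x
    by_cases hx : x ∈ A
    · rw [indicator_of_mem hx]
      exact max_le (by linarith only [ht]) (hg2 x _ (hu x))
    · rw [indicator_of_notMem hx, add_zero]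
      refine max_le le_rfl (hg2 x _ fun y => ?_)
      have := not_le.1 fun h => hx (hAB x y y.2 h)
      linarith only [this]
  have h2 : ∀ y, D1T φ y + B.indicator (fun _ => t) y ≤ D1T (fun x => max (φ x) (g x)) y := by
    intro y
    refine D1_le_T fun x => ?_
    by_cases hy : y ∈ B
    · rw [indicator_of_mem hy]
      have h3 : D1T φ y + t - cost x y ≤ g x := hg1 x ⟨y, hy⟩
      linarith only [h3, le_max_right (φ x) (g x)]
    · rw [indicator_of_notMem hy, add_zero]
      linarith only [D1T_le hc x y, le_max_left (φ x) (g x)]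
  have hiA : Integrable (A.indicator fun _ => t) μ := (integrable_const t).indicator hA.measurableSet
  have hiB : Integrable (B.indicator fun _ => t) ν := (integrable_const t).indicator hB.measurableSet
  have hT := D1_int (D1T_lip hc).continuous ν
  have h3 := integral_mono (D1_int hpc μ) ((D1_int hc μ).add hiA) h1
  have h4 := integral_mono (hT.add hiB) (D1_int (D1T_lip hpc).continuous ν) h2
  rw [integral_add' (D1_int hc μ) hiA, integral_indicator_const _ hA.measurableSet] at h3
  rw [integral_add' hT hiB, integral_indicator_const _ hB.measurableSet] at h4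
  have h5 := hmin _ hp
  unfold D1K at h5
  simp only [smul_eq_mul] at h3 h4
  have h6 : ν.real B * t ≤ μ.real A * t := by linarith only [h3, h4, h5]
  exact (ENNReal.toReal_le_toReal (measure_ne_top _ _) (measure_ne_top _ _)).1
    (le_of_mul_le_mul_right h6 ht)

theorem exists_potential [Nonempty M] (μ ν : Measure M) [IsProbabilityMeasure μ]
    [IsProbabilityMeasure ν] : ∃ φ : M → ℝ, CConvex φ ∧
      ∀ B : Set M, IsClosed B → ν B ≤ μ {x | ∃ y ∈ B, y ∈ cSubdiff φ x} := by
  obtain ⟨φ₀, h0, hmin0⟩ := D1_exists_min μ ν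
  have hc0 := h0.continuous
  have hu : ∀ x y : M, D1T φ₀ y - cost x y ≤ φ₀ x := fun x y => by
    linarith only [D1T_le hc0 x y]
  obtain ⟨φ, hφ, h1, h2⟩ := D1_sup (D1T φ₀) (fun y : M => y) hu
  have hl := D1_lip_of_cconvex hφ
  have hc := hl.continuous
  have hTc := (D1T_lip hc).continuous
  have hmin : ∀ φ' : M → ℝ, D1Lip φ' → D1K μ ν φ ≤ D1K μ ν φ' := by
    intro φ' h'
    refine le_trans ?_ (hmin0 φ' h')
    have h3 := D1_int_le hc hc0 μ (a := 0) fun x => by
      rw [add_zero]; exact h2 x _ (hu x)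
    have h4 := D1_int_le (D1T_lip hc0).continuous hTc ν (a := 0) fun y => by
      rw [add_zero]
      exact D1_le_T fun x => by linarith only [h1 x y]
    unfold D1K
    linarith only [h3, h4]
  refine ⟨φ, hφ, fun B hB => ?_⟩
  rcases B.eq_empty_or_nonempty with rfl | hne
  · simp
  set A : ℕ → Set M := fun n =>
    {x | ∃ y ∈ B, φ x ≤ D1T φ y - cost x y + 1 / ((n : ℝ) + 1)} with hA
  have hAc : ∀ n, IsClosed (A n) := by
    intro n
    have h3 : IsClosed {p : M × M | p.2 ∈ B ∧
        φ p.1 ≤ D1T φ p.2 - cost p.1 p.2 + 1 / ((n : ℝ) + 1)} :=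
      (hB.preimage continuous_snd).inter (isClosed_le (hc.comp continuous_fst)
        (((hTc.comp continuous_snd).sub D1_cost_cont).add continuous_const))
    have h4 := (h3.isCompact.image continuous_fst).isClosed
    convert h4 using 1
    ext x
    constructor
    · rintro ⟨y, hy, h⟩
      exact ⟨(x, y), ⟨hy, h⟩, rfl⟩
    · rintro ⟨p, ⟨hy, h⟩, rfl⟩
      exact ⟨p.2, hy, h⟩
  have hanti : Antitone A := by
    rintro m n hmn x ⟨y, hy, h⟩
    exact ⟨y, hy, by linarith only [h, Nat.one_div_le_one_div (α := ℝ) hmn]⟩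
  have hle : ∀ n, ν B ≤ μ (A n) := fun n =>
    D1_var μ ν hl hmin hB hne (hAc n) Nat.one_div_pos_of_nat fun x y hy h => ⟨y, hy, h⟩
  have hlim := tendsto_measure_iInter_atTop (μ := μ)
    (fun n => (hAc n).measurableSet.nullMeasurableSet) hanti ⟨0, measure_ne_top _ _⟩
  refine (ge_of_tendsto' hlim hle).trans (measure_mono fun x hx => ?_)
  have hcx : Continuous fun y => D1T φ y - cost x y :=
    hTc.sub (D1_cost_cont.comp (continuous_const.prodMk continuous_id))
  obtain ⟨y, hy, hmax⟩ := hB.isCompact.exists_isMaxOn hne hcx.continuousOn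
  have h3 : φ x ≤ D1T φ y - cost x y := by
    refine le_of_forall_pos_le_add fun ε hε => ?_
    obtain ⟨n, hn⟩ := exists_nat_one_div_lt hε
    obtain ⟨z, hz, h⟩ := mem_iInter.1 hx n
    have h4 : D1T φ z - cost x z ≤ D1T φ y - cost x y := hmax hz
    linarith only [h, h4, hn]
  exact ⟨y, hy, fun x' => by linarith only [h3, D1T_le hc x' y]⟩

end Vale.Agent.N234
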