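import Vale.Agent.P234.Defs
import Mathlib.Geometry.Euclidean.Volume.Measure

/-!
# P234: optimal maps and the transport continuity property
-/

open MeasureTheory

namespace Vale.Agent.N234

open Vale.Agent.P234

variable {M : Type*} [MetricSpace M] [MeasurableSpace M]

/-- `ρ` is a measurable probability density for `vol`, bounded above and away from zero. -/
def IsDensity (vol : Measure M) (ρ : M → ℝ) : Prop :=
  Measurable ρ ∧ ∫ x, ρ x ∂vol = 1 ∧ ∃ a b : ℝ, 0 < a ∧ ∀ᵐ x ∂vol, a ≤ ρ x ∧ ρ x ≤ b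

/-- `T` is measurable and pushes `ρ₀ vol` forward to `ρ₁ vol`. -/
def IsTransport (vol : Measure M) (ρ₀ ρ₁ : M → ℝ) (T : M → M) : Prop :=
  Measurable T ∧ (vol.withDensity fun x => ENNReal.ofReal (ρ₀ x)).map T =
    vol.withDensity fun x => ENNReal.ofReal (ρ₁ x)

/-- `T` minimizes the integral of `c(x, T x) ρ₀(x)` among the maps pushing `ρ₀ vol` to
`ρ₁ vol`. -/
def IsOptimalMap (vol : Measure M) (ρ₀ ρ₁ : M → ℝ) (T : M → M) : Prop :=
  IsTransport vol ρ₀ ρ₁ T ∧ ∀ T' : M → M, IsTransport vol ρ₀ ρ₁ T' →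
    ∫ x, cost x (T x) * ρ₀ x ∂vol ≤ ∫ x, cost x (T' x) * ρ₀ x ∂vol

/-- The transport continuity property: for all densities bounded above and away from zero an
optimal map exists, and every optimal map agrees almost everywhere with a continuous map. -/
def TransportContinuity (vol : Measure M) : Prop :=
  ∀ ρ₀ ρ₁ : M → ℝ, IsDensity vol ρ₀ → IsDensity vol ρ₁ →
    (∃ T, IsOptimalMap vol ρ₀ ρ₁ T) ∧
      ∀ T, IsOptimalMap vol ρ₀ ρ₁ T → ∃ S : M → M, Continuous S ∧ T =ᵐ[vol] S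

/-- The plan carried by the graph of `S` is the only optimal plan from `μ` to `ν`: `S` pushes `μ`
to `ν`, no coupling `π` of `μ` and `ν` costs less, and one that costs no more lives on the graph. -/
def IsOnlyPlan (μ ν : Measure M) (S : M → M) : Prop :=
  μ.map S = ν ∧ ∀ π : Measure (M × M), π.map Prod.fst = μ → π.map Prod.snd = ν →
    ∫ x, cost x (S x) ∂μ ≤ ∫ p, cost p.1 p.2 ∂π ∧
      (∫ p, cost p.1 p.2 ∂π ≤ ∫ x, cost x (S x) ∂μ → ∀ᵐ p ∂π, p.2 = S p.1)

end Vale.Agent.N234
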