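import Vale.Agent.P234.H936.Defs
import Mathlib.Topology.ContinuousMap.Bounded.ArzelaAscoli
import Mathlib.Topology.ContinuousMap.Bounded.Normed
import Mathlib.MeasureTheory.Integral.Bochner.Set
import Mathlib.MeasureTheory.Function.LocallyIntegrable
import Mathlib.MeasureTheory.Measure.Typeclasses.Probability
import Mathlib.MeasureTheory.Measure.Regular
import Mathlib.MeasureTheory.Integral.Bochner.Basic
import Mathlib.MeasureTheory.Constructions.BorelSpace.Metrizable
import Mathlib.Topology.Order.Compact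
import Mathlib.Topology.MetricSpace.UniformConvergence
import Mathlib.MeasureTheory.Constructions.BorelSpace.Basic
import Mathlib.MeasureTheory.Measure.Typeclasses.Finite

section
/-! Existence of a Kantorovich potential on a compact metric space. -/

open Set Filter MeasureTheory
open scoped Topology ENNReal BoundedContinuousFunction

namespace Vale.Agent.N234

open Vale.Agent.P234

variable {M : Type*} [MetricSpace M] [CompactSpace M]

/-- Lipschitz with constant the diameter of the space. -/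
def D1Lip (φ : M → ℝ) : Prop :=
  ∀ x x' : M, φ x - φ x' ≤ Metric.diam (univ : Set M) * dist x x'

/-- The `c`-transform. -/
noncomputable def D1T (φ : M → ℝ) (y : M) : ℝ := ⨅ x, (φ x + cost x y)

lemma D1_dist_le (x y : M) : dist x y ≤ Metric.diam (univ : Set M) :=
  Metric.dist_le_diam_of_mem isCompact_univ.isBounded (mem_univ x) (mem_univ y)

lemma D1_cost_sub (x x' y : M) :
    cost x' y - cost x y ≤ Metric.diam (univ : Set M) * dist x x' := by
  have h2 := D1_dist_le x y
  have h3 := D1_dist_le x' y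
  have h4 : dist x' y ≤ dist x x' + dist x y := by
    have := dist_triangle x' x y
    rwa [dist_comm x' x] at this
  have h5 : 0 ≤ dist x y := dist_nonneg
  have h6 : 0 ≤ dist x' y := dist_nonneg
  have h7 : 0 ≤ dist x x' := dist_nonneg
  rw [cost, cost]
  linarith only [mul_nonneg (sub_nonneg.mpr h4) (add_nonneg h5 h6),
    mul_nonneg h7 (sub_nonneg.mpr h3), mul_nonneg h7 (sub_nonneg.mpr h2)]

omit [CompactSpace M] in
lemma D1_cost_comm (x y : M) : cost x y = cost y x := by
  rw [cost, cost, dist_comm]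

omit [CompactSpace M] in
lemma D1_cost_cont : Continuous (fun p : M × M => cost p.1 p.2) := by
  unfold cost
  fun_prop

lemma D1_lip_of_cconvex {ψ : M → ℝ} (h : CConvex ψ) : D1Lip ψ := by
  intro x x'
  obtain ⟨S, hS⟩ := h
  have h1 : ψ x ≤ ψ x' + Metric.diam (univ : Set M) * dist x x' := by
    refine (hS x).2 ?_
    rintro _ ⟨p, hp, rfl⟩
    have h2 := (hS x').1 ⟨p, hp, rfl⟩
    have h3 := D1_cost_sub x x' p.2
    simp only at h2 ⊢
    linarith only [h2, h3]
  linarith only [h1]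

omit [CompactSpace M] in
lemma D1Lip.dist_le {ψ : M → ℝ} (h : D1Lip ψ) (x x' : M) :
    dist (ψ x) (ψ x') ≤ Metric.diam (univ : Set M) * dist x x' := by
  rw [Real.dist_eq, abs_le]
  constructor
  · have := h x' x
    rw [dist_comm] at this
    linarith only [this]
  · exact h x x'

omit [CompactSpace M] in
lemma D1Lip.continuous {ψ : M → ℝ} (h : D1Lip ψ) : Continuous ψ := by
  have : LipschitzWith (Real.toNNReal (Metric.diam (univ : Set M))) ψ := by
    apply LipschitzWith.of_dist_le_mul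
    intro x x'
    rw [Real.coe_toNNReal _ Metric.diam_nonneg]
    exact h.dist_le x x'
  exact this.continuous

lemma D1T_le {φ : M → ℝ} (h : Continuous φ) (x y : M) : D1T φ y ≤ φ x + cost x y := by
  have hc : Continuous fun x => φ x + cost x y :=
    h.add (D1_cost_cont.comp (continuous_id.prodMk continuous_const))
  exact ciInf_le (isCompact_range hc).bddBelow x

omit [CompactSpace M] in
lemma D1_le_T [Nonempty M] {φ : M → ℝ} {a : ℝ} {y : M} (h : ∀ x, a ≤ φ x + cost x y) :
    a ≤ D1T φ y := le_ciInf h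

lemma D1T_lip [Nonempty M] {φ : M → ℝ} (h : Continuous φ) : D1Lip (D1T φ) := by
  intro y y'
  have : D1T φ y - Metric.diam (univ : Set M) * dist y y' ≤ D1T φ y' := by
    refine D1_le_T fun x => ?_
    have h1 := D1T_le h x y
    have h2 := D1_cost_sub y' y x
    rw [dist_comm, D1_cost_comm y x, D1_cost_comm y' x] at h2
    linarith only [h1, h2]
  linarith only [this]

lemma D1T_mono [Nonempty M] {φ φ' : M → ℝ} (h : Continuous φ) {a : ℝ}
    (hle : ∀ x, φ x ≤ φ' x + a) (y : M) : D1T φ y ≤ D1T φ' y + a := by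
  have : D1T φ y - a ≤ D1T φ' y := by
    refine D1_le_T fun x => ?_
    linarith only [D1T_le h x y, hle x]
  linarith only [this]

omit [CompactSpace M] in
/-- A supremum of mountains. -/
lemma D1_sup {ι : Type*} [Nonempty ι] (a : ι → ℝ) (f : ι → M) {u : M → ℝ}
    (hu : ∀ x i, a i - cost x (f i) ≤ u x) :
    ∃ g : M → ℝ, CConvex g ∧ (∀ x i, a i - cost x (f i) ≤ g x) ∧
      ∀ x b, (∀ i, a i - cost x (f i) ≤ b) → g x ≤ b := by
  have hb : ∀ x, BddAbove (range fun i => a i - cost x (f i)) := fun x =>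
    ⟨u x, by rintro _ ⟨i, rfl⟩; exact hu x i⟩
  refine ⟨fun x => ⨆ i, (a i - cost x (f i)), ⟨range fun i => (a i, f i), fun x => ?_⟩,
    fun x i => le_ciSup (hb x) i, fun x b h => ciSup_le h⟩
  rw [← range_comp]
  exact isLUB_ciSup (hb x)

variable [MeasurableSpace M] [BorelSpace M]

/-- The dual functional. -/
noncomputable def D1K (μ ν : Measure M) (φ : M → ℝ) : ℝ := ∫ x, φ x ∂μ - ∫ y, D1T φ y ∂ν

lemma D1_int {φ : M → ℝ} (h : Continuous φ) (μ : Measure M) [IsFiniteMeasure μ] :
    Integrable φ μ :=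
  h.integrable_of_hasCompactSupport (HasCompactSupport.of_compactSpace φ)

lemma D1_int_le {φ φ' : M → ℝ} (h : Continuous φ) (h' : Continuous φ') (μ : Measure M)
    [IsProbabilityMeasure μ] {a : ℝ} (hle : ∀ x, φ x ≤ φ' x + a) :
    ∫ x, φ x ∂μ ≤ ∫ x, φ' x ∂μ + a := by
  have := integral_mono (D1_int h μ) ((D1_int h' μ).add (integrable_const a)) hle
  rwa [integral_add' (D1_int h' μ) (integrable_const a), integral_const, probReal_univ,
    one_smul] at this

lemma D1K_le [Nonempty M] (μ ν : Measure M) [IsProbabilityMeasure μ] [IsProbabilityMeasure ν]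
    {φ φ' : M → ℝ} (h : Continuous φ) (h' : Continuous φ') {a b : ℝ}
    (h1 : ∀ x, φ x ≤ φ' x + a) (h2 : ∀ x, φ' x ≤ φ x + b) :
    D1K μ ν φ ≤ D1K μ ν φ' + (a + b) := by
  have h3 := D1_int_le h h' μ h1
  have h4 := D1_int_le (D1T_lip h').continuous (D1T_lip h).continuous ν (D1T_mono h' h2)
  unfold D1K
  linarith only [h3, h4]

/-- The dual functional has a minimiser among the Lipschitz functions. -/
lemma D1_exists_min [Nonempty M] (μ ν : Measure M) [IsProbabilityMeasure μ]
    [IsProbabilityMeasure ν] :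
    ∃ φ : M → ℝ, D1Lip φ ∧ ∀ φ' : M → ℝ, D1Lip φ' → D1K μ ν φ ≤ D1K μ ν φ' := by
  obtain ⟨x₀⟩ := ‹Nonempty M›
  set L := Metric.diam (univ : Set M) with hL
  have hL0 : 0 ≤ L := Metric.diam_nonneg
  set A : Set (M →ᵇ ℝ) := {f | D1Lip f ∧ f x₀ = 0} with hA
  have hcl : IsClosed A := by
    have h1 : ∀ x : M, Continuous fun f : M →ᵇ ℝ => f x := fun x => continuous_eval_const x
    have h2 : A = (⋂ x, ⋂ x', {f : M →ᵇ ℝ | f x - f x' ≤ L * dist x x'}) ∩ {f | f x₀ = 0} := by
      ext f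
      simp only [hA, D1Lip, mem_ofPred_eq, mem_inter_iff, mem_iInter, hL]
    rw [h2]
    exact (isClosed_iInter fun x => isClosed_iInter fun x' =>
      isClosed_le ((h1 x).sub (h1 x')) continuous_const).inter
        (isClosed_eq (h1 x₀) continuous_const)
  have hA2 : IsCompact A := by
    refine BoundedContinuousFunction.arzela_ascoli₂ (Metric.closedBall 0 (L * L))
      (isCompact_closedBall _ _) A hcl (fun f x hf => ?_) ?_
    · rw [Metric.mem_closedBall, ← hf.2]
      exact (hf.1.dist_le x x₀).trans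
        (mul_le_mul_of_nonneg_left (D1_dist_le x x₀) hL0)
    · refine Metric.equicontinuous_of_continuity_modulus (fun t => L * t) ?_ _
        fun x y f => f.2.1.dist_le x y
      have : Continuous fun t : ℝ => L * t := by fun_prop
      simpa using this.tendsto 0
  have hK : Continuous fun f : M →ᵇ ℝ => D1K μ ν f := by
    have h1 : ∀ f g : M →ᵇ ℝ, ∀ x, f x ≤ g x + dist f g := fun f g x => by
      have := (abs_le.1 (Real.dist_eq _ _ ▸ BoundedContinuousFunction.dist_coe_le_dist
        (f := f) (g := g) x)).2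
      linarith only [this]
    refine (LipschitzWith.of_le_add_mul 2 fun f g => ?_).continuous
    have := D1K_le μ ν f.continuous g.continuous (h1 f g) (h1 g f)
    rw [dist_comm g f] at this
    push_cast
    linarith only [this]
  have hne : A.Nonempty := by
    refine ⟨0, fun x x' => ?_, rfl⟩
    simpa using mul_nonneg hL0 dist_nonneg
  obtain ⟨f, hf, hmin⟩ := hA2.exists_isMinOn hne hK.continuousOn
  refine ⟨f, hf.1, fun φ hφ => ?_⟩
  have hc : Continuous fun x => φ x - φ x₀ := hφ.continuous.sub continuous_const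
  set g : M →ᵇ ℝ := BoundedContinuousFunction.mkOfCompact ⟨_, hc⟩ with hg
  have hgx : ∀ x, g x = φ x - φ x₀ := fun _ => rfl
  have hgA : g ∈ A := by
    refine ⟨fun x x' => ?_, by rw [hgx, sub_self]⟩
    rw [hgx, hgx]
    linarith only [hφ x x']
  have h1 : D1K μ ν f ≤ D1K μ ν g := hmin hgA
  have h2 := D1K_le μ ν g.continuous hφ.continuous (a := -φ x₀) (b := φ x₀)
    (fun x => by rw [hgx]; linarith only []) (fun x => by rw [hgx]; linarith only [])
  linarith only [h1, h2]

/-- First variation at a minimiser. -/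
lemma D1_var [Nonempty M] (μ ν : Measure M) [IsProbabilityMeasure μ] [IsProbabilityMeasure ν]
    {φ : M → ℝ} (hφ : D1Lip φ) (hmin : ∀ φ' : M → ℝ, D1Lip φ' → D1K μ ν φ ≤ D1K μ ν φ')
    {B A : Set M} (hB : IsClosed B) (hne : B.Nonempty) (hA : IsClosed A) {t : ℝ} (ht : 0 < t)
    (hAB : ∀ x, ∀ y ∈ B, φ x ≤ D1T φ y - cost x y + t → x ∈ A) : ν B ≤ μ A := by
  have : Nonempty B := hne.to_subtype
  have hc := hφ.continuous
  have hu : ∀ (x : M) (y : B), D1T φ y + t - cost x y ≤ φ x + t := fun x y => by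
    linarith only [D1T_le hc x y]
  obtain ⟨g, hg, hg1, hg2⟩ := D1_sup (fun y : B => D1T φ y + t) (fun y : B => (y : M))
    (u := fun x => φ x + t) hu
  have hgl := D1_lip_of_cconvex hg
  have hp : D1Lip fun x => max (φ x) (g x) := by
    intro x x'
    have h1 := le_max_left (φ x') (g x')
    have h2 := le_max_right (φ x') (g x')
    have : max (φ x) (g x) ≤ max (φ x') (g x') + Metric.diam (univ : Set M) * dist x x' :=
      max_le (by linarith only [h1, hφ x x']) (by linarith only [h2, hgl x x'])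
    linarith only [this]
  have hpc := hp.continuous
  have h1 : ∀ x, max (φ x) (g x) ≤ φ x + A.indicator (fun _ => t) x := by
    intro x
    by_cases hx : x ∈ A
    · rw [indicator_of_mem hx]
      exact max_le (by linarith only [ht]) (hg2 x _ (hu x))
    · rw [indicator_of_notMem hx, add_zero]
      refine max_le le_rfl (hg2 x _ fun y => ?_)
      have := not_le.1 fun h => hx (hAB x y y.2 h)
      linarith only [this]
  have h2 : ∀ y, D1T φ y + B.indicator (fun _ => t) y ≤ D1T (fun x => max (φ x) (g x)) y := by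
    intro y
    refine D1_le_T fun x => ?_
    by_cases hy : y ∈ B
    · rw [indicator_of_mem hy]
      have h3 : D1T φ y + t - cost x y ≤ g x := hg1 x ⟨y, hy⟩
      linarith only [h3, le_max_right (φ x) (g x)]
    · rw [indicator_of_notMem hy, add_zero]
      linarith only [D1T_le hc x y, le_max_left (φ x) (g x)]
  have hiA : Integrable (A.indicator fun _ => t) μ := (integrable_const t).indicator hA.measurableSet
  have hiB : Integrable (B.indicator fun _ => t) ν := (integrable_const t).indicator hB.measurableSet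
  have hT := D1_int (D1T_lip hc).continuous ν
  have h3 := integral_mono (D1_int hpc μ) ((D1_int hc μ).add hiA) h1
  have h4 := integral_mono (hT.add hiB) (D1_int (D1T_lip hpc).continuous ν) h2
  rw [integral_add' (D1_int hc μ) hiA, integral_indicator_const _ hA.measurableSet] at h3
  rw [integral_add' hT hiB, integral_indicator_const _ hB.measurableSet] at h4
  have h5 := hmin _ hp
  unfold D1K at h5
  simp only [smul_eq_mul] at h3 h4
  have h6 : ν.real B * t ≤ μ.real A * t := by linarith only [h3, h4, h5]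
  exact (ENNReal.toReal_le_toReal (measure_ne_top _ _) (measure_ne_top _ _)).1
    (le_of_mul_le_mul_right h6 ht)

theorem exists_potential [Nonempty M] (μ ν : Measure M) [IsProbabilityMeasure μ]
    [IsProbabilityMeasure ν] : ∃ φ : M → ℝ, CConvex φ ∧
      ∀ B : Set M, IsClosed B → ν B ≤ μ {x | ∃ y ∈ B, y ∈ cSubdiff φ x} := by
  obtain ⟨φ₀, h0, hmin0⟩ := D1_exists_min μ ν
  have hc0 := h0.continuous
  have hu : ∀ x y : M, D1T φ₀ y - cost x y ≤ φ₀ x := fun x y => by
    linarith only [D1T_le hc0 x y]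
  obtain ⟨φ, hφ, h1, h2⟩ := D1_sup (D1T φ₀) (fun y : M => y) hu
  have hl := D1_lip_of_cconvex hφ
  have hc := hl.continuous
  have hTc := (D1T_lip hc).continuous
  have hmin : ∀ φ' : M → ℝ, D1Lip φ' → D1K μ ν φ ≤ D1K μ ν φ' := by
    intro φ' h'
    refine le_trans ?_ (hmin0 φ' h')
    have h3 := D1_int_le hc hc0 μ (a := 0) fun x => by
      rw [add_zero]; exact h2 x _ (hu x)
    have h4 := D1_int_le (D1T_lip hc0).continuous hTc ν (a := 0) fun y => by
      rw [add_zero]
      exact D1_le_T fun x => by linarith only [h1 x y]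
    unfold D1K
    linarith only [h3, h4]
  refine ⟨φ, hφ, fun B hB => ?_⟩
  rcases B.eq_empty_or_nonempty with rfl | hne
  · simp
  set A : ℕ → Set M := fun n =>
    {x | ∃ y ∈ B, φ x ≤ D1T φ y - cost x y + 1 / ((n : ℝ) + 1)} with hA
  have hAc : ∀ n, IsClosed (A n) := by
    intro n
    have h3 : IsClosed {p : M × M | p.2 ∈ B ∧
        φ p.1 ≤ D1T φ p.2 - cost p.1 p.2 + 1 / ((n : ℝ) + 1)} :=
      (hB.preimage continuous_snd).inter (isClosed_le (hc.comp continuous_fst)
        (((hTc.comp continuous_snd).sub D1_cost_cont).add continuous_const))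
    have h4 := (h3.isCompact.image continuous_fst).isClosed
    convert h4 using 1
    ext x
    constructor
    · rintro ⟨y, hy, h⟩
      exact ⟨(x, y), ⟨hy, h⟩, rfl⟩
    · rintro ⟨p, ⟨hy, h⟩, rfl⟩
      exact ⟨p.2, hy, h⟩
  have hanti : Antitone A := by
    rintro m n hmn x ⟨y, hy, h⟩
    exact ⟨y, hy, by linarith only [h, Nat.one_div_le_one_div (α := ℝ) hmn]⟩
  have hle : ∀ n, ν B ≤ μ (A n) := fun n =>
    D1_var μ ν hl hmin hB hne (hAc n) Nat.one_div_pos_of_nat fun x y hy h => ⟨y, hy, h⟩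
  have hlim := tendsto_measure_iInter_atTop (μ := μ)
    (fun n => (hAc n).measurableSet.nullMeasurableSet) hanti ⟨0, measure_ne_top _ _⟩
  refine (ge_of_tendsto' hlim hle).trans (measure_mono fun x hx => ?_)
  have hcx : Continuous fun y => D1T φ y - cost x y :=
    hTc.sub (D1_cost_cont.comp (continuous_const.prodMk continuous_id))
  obtain ⟨y, hy, hmax⟩ := hB.isCompact.exists_isMaxOn hne hcx.continuousOn
  have h3 : φ x ≤ D1T φ y - cost x y := by
    refine le_of_forall_pos_le_add fun ε hε => ?_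
    obtain ⟨n, hn⟩ := exists_nat_one_div_lt hε
    obtain ⟨z, hz, h⟩ := mem_iInter.1 hx n
    have h4 : D1T φ z - cost x z ≤ D1T φ y - cost x y := hmax hz
    linarith only [h, h4, hn]
  exact ⟨y, hy, fun x' => by linarith only [h3, D1T_le hc x' y]⟩

end Vale.Agent.N234

end

section
/-! A continuous potential whose `c`-subdifferential is single valued gives a continuous
transport map which is the unique optimal plan. -/

open Set Filter MeasureTheory
open scoped Topology ENNReal

namespace Vale.Agent.N234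

open Vale.Agent.P234

variable {M : Type*} [MetricSpace M] [CompactSpace M] [MeasurableSpace M] [BorelSpace M]

omit [CompactSpace M] [MeasurableSpace M] [BorelSpace M] in
lemma d2_cost_cont : Continuous (fun p : M × M => cost p.1 p.2) := by
  unfold cost
  fun_prop

omit [CompactSpace M] [MeasurableSpace M] [BorelSpace M] in
lemma d2_graph_closed {φ : M → ℝ} (hφ : Continuous φ) :
    IsClosed {p : M × M | p.2 ∈ cSubdiff φ p.1} := by
  have h : {p : M × M | p.2 ∈ cSubdiff φ p.1} =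
      ⋂ x' : M, {p : M × M | φ p.1 + cost p.1 p.2 - cost x' p.2 ≤ φ x'} := by
    ext p
    simp only [cSubdiff, mem_ofPred_eq, mem_iInter]
  rw [h]
  refine isClosed_iInter fun x' => isClosed_le ?_ continuous_const
  unfold cost
  fun_prop

omit [MeasurableSpace M] [BorelSpace M] in
lemma d2_cont {φ : M → ℝ} (hφ : Continuous φ) {S : M → M}
    (hS : ∀ x, cSubdiff φ x = {S x}) : Continuous S := by
  rw [continuous_iff_isClosed]
  intro B hB
  have h : S ⁻¹' B = Prod.fst '' ({p : M × M | p.2 ∈ cSubdiff φ p.1} ∩ Prod.snd ⁻¹' B) := by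
    ext x
    constructor
    · intro hx
      refine ⟨(x, S x), ⟨?_, hx⟩, rfl⟩
      show S x ∈ cSubdiff φ x
      rw [hS x]
      exact mem_singleton _
    · rintro ⟨p, ⟨hp, hpB⟩, rfl⟩
      have h1 : p.2 ∈ cSubdiff φ p.1 := hp
      rw [hS p.1, mem_singleton_iff] at h1
      show S p.1 ∈ B
      rw [← h1]
      exact hpB
  rw [h]
  exact isClosedMap_fst_of_compactSpace _
    ((d2_graph_closed hφ).inter (hB.preimage continuous_snd))

/-- The `c`-transform of the potential. -/
noncomputable def d2psi (φ : M → ℝ) (y : M) : ℝ :=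
  sInf ((fun x : M => φ x + cost x y) '' univ)

omit [MeasurableSpace M] [BorelSpace M] in
lemma d2psi_cont {φ : M → ℝ} (hφ : Continuous φ) : Continuous (d2psi φ) := by
  unfold d2psi
  refine IsCompact.continuous_sInf (f := fun (y : M) (x : M) => φ x + cost x y)
    isCompact_univ ?_
  unfold cost
  show Continuous fun p : M × M => φ p.2 + dist p.2 p.1 ^ 2 / 2
  fun_prop

omit [MeasurableSpace M] [BorelSpace M] in
lemma d2psi_le {φ : M → ℝ} (hφ : Continuous φ) (x y : M) : d2psi φ y ≤ φ x + cost x y := by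
  unfold d2psi
  have hc : Continuous fun x : M => φ x + cost x y := by
    unfold cost
    fun_prop
  exact csInf_le (isCompact_univ.image hc).bddBelow ⟨x, mem_univ _, rfl⟩

omit [MeasurableSpace M] [BorelSpace M] in
lemma d2psi_eq_iff {φ : M → ℝ} (hφ : Continuous φ) (x y : M) :
    d2psi φ y = φ x + cost x y ↔ y ∈ cSubdiff φ x := by
  constructor
  · intro h x'
    have h1 := d2psi_le hφ x' y
    linarith
  · intro h
    refine le_antisymm (d2psi_le hφ x y) ?_
    unfold d2psi
    refine le_csInf ⟨_, x, mem_univ _, rfl⟩ ?_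
    rintro _ ⟨x', -, rfl⟩
    have h1 := h x'
    show φ x + cost x y ≤ φ x' + cost x' y
    linarith

lemma d2_int {X : Type*} [TopologicalSpace X] [CompactSpace X] [MeasurableSpace X]
    [OpensMeasurableSpace X] (m : Measure X) [IsFiniteMeasure m] {f : X → ℝ}
    (hf : Continuous f) : Integrable f m :=
  hf.integrable_of_hasCompactSupport (HasCompactSupport.of_compactSpace f)

lemma d2_map (μ ν : Measure M) [IsProbabilityMeasure μ] [IsProbabilityMeasure ν]
    {S : M → M} (hc : Continuous S) (H : ∀ B : Set M, IsClosed B → ν B ≤ μ (S ⁻¹' B)) :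
    μ.map S = ν := by
  have hm : Measurable S := hc.measurable
  have : IsProbabilityMeasure (μ.map S) := Measure.isProbabilityMeasure_map hm.aemeasurable
  refine (Measure.eq_of_le_of_isProbabilityMeasure (μ := ν) (ν := μ.map S) ?_).symm
  refine Measure.le_iff.2 fun A hA => ?_
  rw [hA.measure_eq_iSup_isClosed_of_ne_top (measure_ne_top ν A)]
  refine iSup_le fun K => iSup_le fun hKA => iSup_le fun hK => ?_
  calc ν K ≤ μ (S ⁻¹' K) := H K hK
    _ ≤ μ (S ⁻¹' A) := measure_mono (preimage_mono hKA)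
    _ = μ.map S A := (Measure.map_apply hm hA).symm

theorem plan_of_potential (μ ν : Measure M) [IsProbabilityMeasure μ] [IsProbabilityMeasure ν]
    {φ : M → ℝ} (hφ : Continuous φ) {S : M → M} (hS : ∀ x, cSubdiff φ x = {S x})
    (H : ∀ B : Set M, IsClosed B → ν B ≤ μ {x | ∃ y ∈ B, y ∈ cSubdiff φ x}) :
    Continuous S ∧ μ.map S = ν ∧ ∀ π : Measure (M × M), π.map Prod.fst = μ →
      π.map Prod.snd = ν →
      ∫ x, cost x (S x) ∂μ ≤ ∫ p, cost p.1 p.2 ∂π ∧
      (∫ p, cost p.1 p.2 ∂π ≤ ∫ x, cost x (S x) ∂μ → ∀ᵐ p ∂π, p.2 = S p.1) := by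
  have hc : Continuous S := d2_cont hφ hS
  have hmap : μ.map S = ν := by
    refine d2_map μ ν hc fun B hB => ?_
    have h : {x | ∃ y ∈ B, y ∈ cSubdiff φ x} = S ⁻¹' B := by
      ext x
      simp only [hS x, mem_singleton_iff, mem_ofPred_eq, mem_preimage, exists_eq_right]
    rw [← h]
    exact H B hB
  refine ⟨hc, hmap, fun π h1 h2 => ?_⟩
  have : IsProbabilityMeasure (π.map Prod.fst) := by
    rw [h1]
    infer_instance
  have : IsProbabilityMeasure π := Measure.isProbabilityMeasure_of_map Prod.fst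
  have hψ := d2psi_cont hφ
  have e1 : ∫ p, φ p.1 ∂π = ∫ x, φ x ∂μ := by
    rw [← h1, integral_map measurable_fst.aemeasurable hφ.aestronglyMeasurable]
  have e2 : ∫ p, d2psi φ p.2 ∂π = ∫ y, d2psi φ y ∂ν := by
    rw [← h2, integral_map measurable_snd.aemeasurable hψ.aestronglyMeasurable]
  have e3 : ∫ y, d2psi φ y ∂ν = ∫ x, d2psi φ (S x) ∂μ := by
    rw [← hmap, integral_map hc.measurable.aemeasurable hψ.aestronglyMeasurable]
  have hcS : Continuous fun x : M => cost x (S x) :=
    d2_cost_cont.comp (continuous_id.prodMk hc)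
  have e4 : ∫ x, d2psi φ (S x) ∂μ = ∫ x, φ x ∂μ + ∫ x, cost x (S x) ∂μ := by
    rw [← integral_add (d2_int μ hφ) (d2_int μ hcS)]
    refine integral_congr_ae (Eventually.of_forall fun x => ?_)
    refine (d2psi_eq_iff hφ x (S x)).2 ?_
    rw [hS x]
    exact mem_singleton _
  have i1 : Integrable (fun p : M × M => φ p.1) π := d2_int π (hφ.comp continuous_fst)
  have i2 : Integrable (fun p : M × M => d2psi φ p.2) π := d2_int π (hψ.comp continuous_snd)
  have i3 : Integrable (fun p : M × M => cost p.1 p.2) π := d2_int π d2_cost_cont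
  have i4 : Integrable (fun p : M × M => φ p.1 + cost p.1 p.2) π := i1.add i3
  have i5 : Integrable (fun p : M × M => φ p.1 + cost p.1 p.2 - d2psi φ p.2) π := i4.sub i2
  have hnn : 0 ≤ fun p : M × M => φ p.1 + cost p.1 p.2 - d2psi φ p.2 := fun p =>
    sub_nonneg.2 (d2psi_le hφ p.1 p.2)
  have e5 : ∫ p, (φ p.1 + cost p.1 p.2 - d2psi φ p.2) ∂π =
      ∫ p, cost p.1 p.2 ∂π - ∫ x, cost x (S x) ∂μ := by
    rw [integral_sub i4 i2, integral_add i1 i3, e1, e2, e3, e4]
    ring
  have hpos : 0 ≤ ∫ p, (φ p.1 + cost p.1 p.2 - d2psi φ p.2) ∂π := integral_nonneg hnn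
  refine ⟨by linarith, fun hle => ?_⟩
  have hz : ∫ p, (φ p.1 + cost p.1 p.2 - d2psi φ p.2) ∂π = 0 := by linarith
  have hae := (integral_eq_zero_iff_of_nonneg hnn i5).1 hz
  filter_upwards [hae] with p hp
  have h3 : φ p.1 + cost p.1 p.2 - d2psi φ p.2 = 0 := hp
  have h4 : p.2 ∈ cSubdiff φ p.1 := (d2psi_eq_iff hφ p.1 p.2).1 (by linarith)
  rw [hS p.1] at h4
  exact h4

end Vale.Agent.N234

end

section
/-! Block D3: a uniform modulus of continuity for the `c`-subdifferential, by compactness. -/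

open Set Filter MeasureTheory
open scoped Topology ENNReal BoundedContinuousFunction

namespace Vale.Agent.N234

open Vale.Agent.P234

section metric

variable {M : Type*} [MetricSpace M]

lemma d3_tendsto_cost {ι : Type*} {l : Filter ι} {x y : ι → M} {x₀ y₀ : M}
    (hx : Tendsto x l (𝓝 x₀)) (hy : Tendsto y l (𝓝 y₀)) :
    Tendsto (fun k => cost (x k) (y k)) l (𝓝 (cost x₀ y₀)) := by
  unfold cost
  exact ((hx.dist hy).pow 2).div_const 2

/-- The relaxed contact set. -/
def d3A (φ : M → ℝ) (B : Set M) (t : ℝ) : Set M :=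
  {x | ∃ y ∈ B, ∀ x' : M, φ x + cost x y - cost x' y ≤ φ x' + t}

lemma d3A_mono (φ : M → ℝ) (B : Set M) {s t : ℝ} (h : s ≤ t) : d3A φ B s ⊆ d3A φ B t := by
  rintro x ⟨y, hy, hx⟩
  exact ⟨y, hy, fun x' => (hx x').trans (by linarith only [h])⟩

lemma d3A_zero (φ : M → ℝ) (B : Set M) : d3A φ B 0 = {x | ∃ y ∈ B, y ∈ cSubdiff φ x} := by
  ext x
  simp only [d3A, cSubdiff, add_zero, mem_ofPred_eq]

lemma d3A_near {φ ψ : M → ℝ} (B : Set M) {t c : ℝ} (h : ∀ x, |ψ x - c - φ x| ≤ t / 2) :
    {x | ∃ y ∈ B, y ∈ cSubdiff ψ x} ⊆ d3A φ B t := by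
  rintro x ⟨y, hy, hx⟩
  refine ⟨y, hy, fun x' => ?_⟩
  have h1 := hx x'
  have h2 := abs_le.1 (h x)
  have h3 := abs_le.1 (h x')
  linarith only [h1, h2.1, h3.2]

variable [CompactSpace M]

lemma d3_diam (x y : M) : dist x y ≤ Metric.diam (univ : Set M) :=
  Metric.dist_le_diam_of_mem isCompact_univ.isBounded (mem_univ _) (mem_univ _)

lemma d3_cost_le (x x' y : M) :
    cost x' y - cost x y ≤ Metric.diam (univ : Set M) * dist x x' := by
  have h2 := d3_diam x y
  have h3 := d3_diam x' y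
  have h4 : dist x' y ≤ dist x x' + dist x y := by
    have := dist_triangle x' x y
    rwa [dist_comm x' x] at this
  have h5 : 0 ≤ dist x y := dist_nonneg
  have h6 : 0 ≤ dist x' y := dist_nonneg
  have h7 : 0 ≤ dist x x' := dist_nonneg
  rw [cost, cost]
  linarith only [mul_nonneg (sub_nonneg.mpr h4) (add_nonneg h5 h6),
    mul_nonneg h7 (sub_nonneg.mpr h3), mul_nonneg h7 (sub_nonneg.mpr h2)]

lemma d3_lip {ψ : M → ℝ} (h : CConvex ψ) (x x' : M) :
    ψ x - ψ x' ≤ Metric.diam (univ : Set M) * dist x x' := by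
  obtain ⟨S, hS⟩ := h
  have h1 : ψ x ≤ ψ x' + Metric.diam (univ : Set M) * dist x x' := by
    refine (hS x).2 ?_
    rintro _ ⟨p, hp, rfl⟩
    have h2 := (hS x').1 ⟨p, hp, rfl⟩
    have h3 := d3_cost_le x x' p.2
    simp only at h2 ⊢
    linarith only [h2, h3]
  linarith only [h1]

lemma d3_lipW {ψ : M → ℝ} (h : CConvex ψ) (c : ℝ) :
    LipschitzWith (Real.toNNReal (Metric.diam (univ : Set M))) (fun x => ψ x - c) := by
  apply LipschitzWith.of_dist_le_mul
  intro x x'
  rw [Real.dist_eq, Real.coe_toNNReal _ Metric.diam_nonneg, abs_le]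
  have h1 := d3_lip h x' x
  rw [dist_comm] at h1
  have h2 := d3_lip h x x'
  constructor
  · linarith only [h1]
  · linarith only [h2]

lemma d3A_lim {φ : M → ℝ} (hφ : Continuous φ) {B : Set M} (hB : IsClosed B) {x : ℕ → M} {x₀ : M}
    (hx : Tendsto x atTop (𝓝 x₀)) {t : ℕ → ℝ} {t₀ : ℝ} (ht : Tendsto t atTop (𝓝 t₀))
    (h : ∀ k, x k ∈ d3A φ B (t k)) : x₀ ∈ d3A φ B t₀ := by
  choose y hy hle using h
  obtain ⟨y₀, hy₀, s, hs, hys⟩ := hB.isCompact.tendsto_subseq hy
  refine ⟨y₀, hy₀, fun x' => ?_⟩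
  have hxs : Tendsto (fun k => x (s k)) atTop (𝓝 x₀) := hx.comp hs.tendsto_atTop
  have hts : Tendsto (fun k => t (s k)) atTop (𝓝 t₀) := ht.comp hs.tendsto_atTop
  have h1 : Tendsto (fun k => φ (x (s k)) + cost (x (s k)) (y (s k)) - cost x' (y (s k))) atTop
      (𝓝 (φ x₀ + cost x₀ y₀ - cost x' y₀)) :=
    (((hφ.tendsto x₀).comp hxs).add (d3_tendsto_cost hxs hys)).sub
      (d3_tendsto_cost tendsto_const_nhds hys)
  exact le_of_tendsto_of_tendsto' h1 (tendsto_const_nhds.add hts) fun k => hle (s k) x'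

lemma d3A_closed {φ : M → ℝ} (hφ : Continuous φ) {B : Set M} (hB : IsClosed B) (t : ℝ) :
    IsClosed (d3A φ B t) :=
  isSeqClosed_iff_isClosed.1 fun _ _ h hx => d3A_lim hφ hB hx tendsto_const_nhds h

lemma d3A_iInter {φ : M → ℝ} (hφ : Continuous φ) {B : Set M} (hB : IsClosed B) :
    ⋂ n : ℕ, d3A φ B (1 / ((n : ℝ) + 1)) = {x | ∃ y ∈ B, y ∈ cSubdiff φ x} := by
  rw [← d3A_zero]
  apply Subset.antisymm
  · intro x hx
    exact d3A_lim hφ hB tendsto_const_nhds (tendsto_one_div_add_atTop_nhds_zero_nat (𝕜 := ℝ))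
      (mem_iInter.1 hx)
  · exact subset_iInter fun n => d3A_mono φ B (by positivity)

/-- Arzela-Ascoli for normalised `c`-convex functions. -/
lemma d3_subseq (x₀ : M) (ψ : ℕ → M → ℝ) (hψ : ∀ k, CConvex (ψ k)) :
    ∃ (φ : M → ℝ) (s : ℕ → ℕ), Continuous φ ∧ StrictMono s ∧
      ∀ t > 0, ∀ᶠ k in atTop, ∀ x, |ψ (s k) x - ψ (s k) x₀ - φ x| ≤ t := by
  set D := Metric.diam (univ : Set M) with hD
  let f : ℕ → M →ᵇ ℝ := fun k => BoundedContinuousFunction.mkOfCompact
    ⟨fun x => ψ k x - ψ k x₀, (d3_lipW (hψ k) _).continuous⟩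
  have hf : ∀ k x, f k x = ψ k x - ψ k x₀ := fun _ _ => rfl
  have hc : IsCompact (closure (range f)) := by
    refine BoundedContinuousFunction.arzela_ascoli (Icc (-(D * D)) (D * D)) isCompact_Icc _ ?_ ?_
    · rintro _ x ⟨k, rfl⟩
      have h0 : 0 ≤ D := Metric.diam_nonneg
      have h1 := d3_lip (hψ k) x x₀
      have h2 := d3_lip (hψ k) x₀ x
      have h3 := mul_le_mul_of_nonneg_left (d3_diam x x₀) h0
      have h4 := mul_le_mul_of_nonneg_left (d3_diam x₀ x) h0
      rw [hf]
      constructor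
      · linarith only [h2, h4]
      · linarith only [h1, h3]
    · refine (LipschitzWith.uniformEquicontinuous _ (Real.toNNReal D) ?_).equicontinuous
      rintro ⟨_, k, rfl⟩
      exact d3_lipW (hψ k) _
  obtain ⟨g, -, s, hs, hg⟩ := hc.tendsto_subseq (x := f) fun k => subset_closure ⟨k, rfl⟩
  refine ⟨g, s, g.continuous, hs, fun t ht => ?_⟩
  filter_upwards [Metric.tendsto_nhds.1 hg t ht] with k hk x
  have h1 := BoundedContinuousFunction.dist_coe_le_dist (f := f (s k)) (g := g) x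
  rw [Real.dist_eq, hf] at h1
  exact h1.trans hk.le

end metric

variable {M : Type*} [MetricSpace M] [CompactSpace M] [MeasurableSpace M] [BorelSpace M]

/-- The measure hypothesis passes to uniform limits (up to constants). -/
lemma d3_pass (m : Measure M) [IsFiniteMeasure m] {κ : ℝ≥0∞} (hκ : κ ≠ ⊤) {φ : M → ℝ}
    (hφ : Continuous φ) {B : Set M} (hB : IsClosed B)
    (h : ∀ t > 0, ∃ (ψ : M → ℝ) (c : ℝ), (∀ x, |ψ x - c - φ x| ≤ t) ∧
      m B ≤ κ * m {x | ∃ y ∈ B, y ∈ cSubdiff ψ x}) :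
    m B ≤ κ * m {x | ∃ y ∈ B, y ∈ cSubdiff φ x} := by
  have h1 : Tendsto (fun n : ℕ => m (d3A φ B (1 / ((n : ℝ) + 1)))) atTop
      (𝓝 (m {x | ∃ y ∈ B, y ∈ cSubdiff φ x})) := by
    rw [← d3A_iInter hφ hB]
    refine tendsto_measure_iInter_atTop (μ := m)
      (fun n => (d3A_closed hφ hB _).measurableSet.nullMeasurableSet) ?_ ⟨0, measure_ne_top _ _⟩
    intro a b hab
    refine d3A_mono φ B (one_div_le_one_div_of_le (by positivity) ?_)
    have : (a : ℝ) ≤ b := Nat.cast_le.2 hab
    linarith only [this]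
  refine ge_of_tendsto' (ENNReal.Tendsto.const_mul h1 (Or.inr hκ)) fun n => ?_
  obtain ⟨ψ, c, h2, h3⟩ := h (1 / ((n : ℝ) + 1) / 2) (by positivity)
  exact h3.trans (mul_le_mul_right (measure_mono (d3A_near B h2)) κ)

theorem equi_of_subsingleton (m : Measure M) [IsFiniteMeasure m] (κ : ℝ≥0∞) (hκ : κ ≠ ⊤)
    (hA : ∀ φ : M → ℝ, Continuous φ →
      (∀ B : Set M, IsClosed B → m B ≤ κ * m {x | ∃ y ∈ B, y ∈ cSubdiff φ x}) →
      ∀ x, (cSubdiff φ x).Subsingleton) {ε : ℝ} (hε : 0 < ε) :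
    ∃ δ > 0, ∀ φ : M → ℝ, CConvex φ →
      (∀ B : Set M, IsClosed B → m B ≤ κ * m {x | ∃ y ∈ B, y ∈ cSubdiff φ x}) →
      ∀ a b y z : M, y ∈ cSubdiff φ a → z ∈ cSubdiff φ b → dist a b < δ → dist y z < ε := by
  by_contra hcon
  have h0 : ∀ k : ℕ, ∃ φ : M → ℝ, CConvex φ ∧
      (∀ B : Set M, IsClosed B → m B ≤ κ * m {x | ∃ y ∈ B, y ∈ cSubdiff φ x}) ∧
      ∃ p : (M × M) × M × M, p.2.1 ∈ cSubdiff φ p.1.1 ∧ p.2.2 ∈ cSubdiff φ p.1.2 ∧
        dist p.1.1 p.1.2 < 1 / ((k : ℝ) + 1) ∧ ε ≤ dist p.2.1 p.2.2 := by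
    intro k
    by_contra hk
    refine hcon ⟨1 / ((k : ℝ) + 1), by positivity, fun φ h1 h2 a b y z hy hz hab => ?_⟩
    by_contra h3
    exact hk ⟨φ, h1, h2, ((a, b), y, z), hy, hz, hab, not_lt.1 h3⟩
  choose ψ hψ hm p hy hz hab hyz using h0
  obtain ⟨φ, s, hφ, hs, hu⟩ := d3_subseq (p 0).1.1 ψ hψ
  obtain ⟨q, -, r, hr, hq⟩ := isCompact_univ.tendsto_subseq (x := fun k => p (s k))
    fun k => mem_univ _
  have hsr : Tendsto (fun k => s (r k)) atTop atTop := hs.tendsto_atTop.comp hr.tendsto_atTop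
  have ha : Tendsto (fun k => (p (s (r k))).1.1) atTop (𝓝 q.1.1) := hq.fst_nhds.fst_nhds
  have hb : Tendsto (fun k => (p (s (r k))).1.2) atTop (𝓝 q.1.2) := hq.fst_nhds.snd_nhds
  have hy' : Tendsto (fun k => (p (s (r k))).2.1) atTop (𝓝 q.2.1) := hq.snd_nhds.fst_nhds
  have hz' : Tendsto (fun k => (p (s (r k))).2.2) atTop (𝓝 q.2.2) := hq.snd_nhds.snd_nhds
  have e1 : q.1.1 = q.1.2 := by
    refine dist_le_zero.1 (le_of_tendsto_of_tendsto' (ha.dist hb)
      ((tendsto_one_div_add_atTop_nhds_zero_nat (𝕜 := ℝ)).comp hsr) fun k => (hab _).le)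
  have e2 : ε ≤ dist q.2.1 q.2.2 := ge_of_tendsto' (hy'.dist hz') fun k => hyz _
  have key : ∀ (a y : ℕ → M) (a₀ y₀ : M), Tendsto a atTop (𝓝 a₀) → Tendsto y atTop (𝓝 y₀) →
      (∀ k, y k ∈ cSubdiff (ψ (s (r k))) (a k)) → y₀ ∈ cSubdiff φ a₀ := by
    intro a y a₀ y₀ h1 h2 h3 x'
    have h4 : Tendsto (fun k => φ (a k) + cost (a k) (y k) - cost x' (y k)) atTop
        (𝓝 (φ a₀ + cost a₀ y₀ - cost x' y₀)) :=
      (((hφ.tendsto a₀).comp h1).add (d3_tendsto_cost h1 h2)).sub
        (d3_tendsto_cost tendsto_const_nhds h2)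
    refine le_of_forall_pos_le_add fun t ht => le_of_tendsto h4 ?_
    filter_upwards [hr.tendsto_atTop.eventually (hu (t / 2) (half_pos ht))] with k hk
    have h5 := h3 k x'
    have h6 := abs_le.1 (hk (a k))
    have h7 := abs_le.1 (hk x')
    linarith only [h5, h6.1, h7.2]
  have m1 : q.2.1 ∈ cSubdiff φ q.1.1 := key _ _ _ _ ha hy' fun k => hy _
  have m2 : q.2.2 ∈ cSubdiff φ q.1.1 := e1 ▸ key _ _ _ _ hb hz' fun k => hz _
  have hH : ∀ B : Set M, IsClosed B → m B ≤ κ * m {x | ∃ y ∈ B, y ∈ cSubdiff φ x} := by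
    intro B hB
    refine d3_pass m hκ hφ hB fun t ht => ?_
    obtain ⟨k, hk⟩ := (hu t ht).exists
    exact ⟨ψ (s k), ψ (s k) (p 0).1.1, hk, hm _ B hB⟩
  have e3 := hA φ hφ hH _ m1 m2
  rw [e3, dist_self] at e2
  exact absurd hε (not_lt.2 e2)

end Vale.Agent.N234

end
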