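import Vale.Agent.P234.H936.Main
import Mathlib.Geometry.Euclidean.Volume.Measure
import Mathlib.MeasureTheory.Covering.Vitali

/-!
# P234: first order estimates for the cost through midpoints, valid on the cut locus
-/

set_option maxSynthPendingDepth 3
set_option linter.unusedSectionVars false

open Bundle Manifold Set Filter MeasureTheory Module
open scoped ContDiff Manifold Topology ENNReal

namespace Vale.Agent.N234

open Vale.Agent.P234

section mid

variable {M : Type*} [MetricSpace M]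

/-- `w` is a midpoint of `x` and `y`. -/
def Mid (x w y : M) : Prop := cost x y / 2 = cost x w + cost w y

lemma Mid.symm {x w y : M} (h : Mid x w y) : Mid y w x := by
  unfold Mid at *
  rw [cost_comm y x, cost_comm y w, cost_comm w x, h, add_comm]

lemma Mid.le {x w y : M} (h : Mid x w y) (x' : M) :
    cost x' y - cost x y ≤ 2 * (cost x' w - cost x w) := by
  have h1 := cost_ineq x' w y one_pos one_pos
  unfold Mid at h
  norm_num at h1
  linarith

lemma Mid.dists {x w y : M} (h : Mid x w y) :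
    dist x w + dist w y = dist x y ∧ dist x w = dist x y / 2 := by
  unfold Mid cost at h
  have h1 := dist_triangle x w y
  have h2 : 0 ≤ dist x y := dist_nonneg
  have h3 : 0 ≤ dist x w := dist_nonneg
  have h4 : 0 ≤ dist w y := dist_nonneg
  have h5 : dist x y ^ 2 ≤ (dist x w + dist w y) ^ 2 := pow_le_pow_left₀ h2 h1 2
  have h6 : (dist x w - dist w y) ^ 2 ≤ 0 := by nlinarith
  have h7 : dist x w = dist w y := by nlinarith [sq_nonneg (dist x w - dist w y)]
  have h8 : (dist x w + dist w y) ^ 2 = dist x y ^ 2 := by rw [h7] at h ⊢; nlinarith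
  have h9 := (sq_eq_sq₀ (add_nonneg h3 h4) h2).1 h8
  exact ⟨h9, by linarith⟩

lemma cost_cont {X : Type*} [TopologicalSpace X] {f g : X → M} (hf : Continuous f)
    (hg : Continuous g) : Continuous fun p => cost (f p) (g p) :=
  continuous_cost.comp (hf.prodMk hg)

lemma isClosed_mid {X : Type*} [TopologicalSpace X] {f g h : X → M} (hf : Continuous f)
    (hg : Continuous g) (hh : Continuous h) : IsClosed {p | Mid (f p) (g p) (h p)} :=
  isClosed_eq ((cost_cont hf hh).div_const 2) ((cost_cont hf hg).add (cost_cont hg hh))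

lemma isClosed_sub {X : Type*} [TopologicalSpace X] {φ : M → ℝ} (hφ : Continuous φ)
    {f g : X → M} (hf : Continuous f) (hg : Continuous g) :
    IsClosed {p | g p ∈ cSubdiff φ (f p)} := by
  have : {p | g p ∈ cSubdiff φ (f p)} =
      ⋂ x' : M, {p | φ (f p) + cost (f p) (g p) - cost x' (g p) ≤ φ x'} := by
    ext p
    simp only [cSubdiff, mem_ofPred_eq, mem_iInter]
  rw [this]
  exact isClosed_iInter fun x' => isClosed_le
    (((hφ.comp hf).add (cost_cont hf hg)).sub (cost_cont continuous_const hg)) continuous_const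

end mid

variable {E : Type*} [NormedAddCommGroup E] [NormedSpace ℝ E] [FiniteDimensional ℝ E]
  {M : Type*} [MetricSpace M] [ChartedSpace E M]
  [RiemannianBundle (fun x : M => TangentSpace 𝓘(ℝ, E) x)]
  [IsManifold 𝓘(ℝ, E) ∞ M]
  [IsContMDiffRiemannianBundle 𝓘(ℝ, E) ∞ E (fun x : M => TangentSpace 𝓘(ℝ, E) x)]
  [CompactSpace M]
  {e : ∀ x : M, TangentSpace 𝓘(ℝ, E) x → M}

lemma exists_mid (F : Facts e) (x y : M) : ∃ w, Mid x w y := by
  obtain ⟨w, hw⟩ := F.exists_between x y one_pos one_pos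
  refine ⟨w, ?_⟩
  unfold Mid
  norm_num at hw
  exact hw

lemma Mid.vec (F : Facts e) {x w y : M} (h : Mid x w y) :
    ∃ V ∈ segMin e x, e x V = y ∧ e x ((1 / 2 : ℝ) • V) = w := by
  obtain ⟨V, hV, hy, t, -, -, hw, ht⟩ := F.between h.dists.1
  refine ⟨V, hV, hy, ?_⟩
  have h1 : dist x (e x V) = ‖V‖ := hV
  rw [hy] at h1
  rcases eq_or_ne V 0 with rfl | h0
  · rw [smul_zero] at hw ⊢
    exact hw
  · have h2 : 0 < ‖V‖ := norm_pos_iff.2 h0
    have h3 := h.dists.2
    rw [ht, h1] at h3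
    have h4 : t = 1 / 2 := by
      apply mul_right_cancel₀ h2.ne'
      linarith
    rw [← h4]
    exact hw

/-- Strict differentiability of the cost at a smooth pair, in exponential coordinates. -/
lemma strict (F : Facts e) {x : M} {v : TangentSpace 𝓘(ℝ, E) x} (hv : v ∈ segMin e x)
    (hs : SmoothAt E x (e x v)) {ε : ℝ} (hε : 0 < ε) :
    ∃ ρ > 0, ∀ a b : TangentSpace 𝓘(ℝ, E) x, ‖a‖ < ρ → ‖b‖ < ρ → ∀ w, dist (e x v) w < ρ →
      cost (e x b) w - cost (e x a) w ≤ -inner ℝ v (b - a) + ε * ‖b - a‖ := by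
  have he := F.isExp
  set q := e x v with hq
  have hs0 : SmoothAt E (e x 0) (e q 0) := by rw [he.map_zero, he.map_zero]; exact hs
  have h1 := (hs0.coord he).hasStrictFDerivAt (by simp)
  set G := fderiv ℝ (fun p : TangentSpace 𝓘(ℝ, E) x × TangentSpace 𝓘(ℝ, E) q =>
      cost (e x p.1) (e q p.2)) (0, 0) with hG
  have h2 : HasFDerivAt (fun a : TangentSpace 𝓘(ℝ, E) x => cost (e x a) (e q 0))
      (G.comp (ContinuousLinearMap.inl ℝ _ _)) 0 :=
    HasFDerivAt.comp (f := fun a : TangentSpace 𝓘(ℝ, E) x => (a, (0 : TangentSpace 𝓘(ℝ, E) q)))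
      (0 : TangentSpace 𝓘(ℝ, E) x) h1.hasFDerivAt (hasFDerivAt_prodMk_left _ _)
  rw [he.map_zero] at h2
  have h3 := h2.unique (hasFDerivAt_cost_zero he x v hv hs)
  have h4 : ∀ h : TangentSpace 𝓘(ℝ, E) x, G (h, 0) = -inner ℝ v h := fun h => by
    have := congrArg (fun L => L h) h3
    simpa using this
  obtain ⟨ρ, hρ, h5⟩ := Metric.eventually_nhds_iff.1 (h1.isLittleO.def hε)
  refine ⟨ρ, hρ, fun a b ha hb w hw => ?_⟩
  obtain ⟨ζ, hζ, hd⟩ := F.hopfRinow q w
  have h6 := @h5 ((b, ζ), (a, ζ)) (by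
    simp only [Prod.dist_eq, dist_zero_right, max_lt_iff]
    rw [← hd]
    exact ⟨⟨hb, hw⟩, ha, hw⟩)
  simp only [hζ, Prod.mk_sub_mk, sub_self, h4, Prod.norm_mk, norm_zero, norm_nonneg,
    sup_of_le_left, Real.norm_eq_abs] at h6
  have h7 := (abs_le.1 h6).2
  linarith

/-- One-sided first order estimate near any pair, uniform over the pairs with close midpoints. -/
lemma onesided (F : Facts e) {x : M} {V : TangentSpace 𝓘(ℝ, E) x} (hV : V ∈ segMin e x)
    {ε : ℝ} (hε : 0 < ε) :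
    ∃ ρ > 0, ∀ a b : TangentSpace 𝓘(ℝ, E) x, ‖a‖ < ρ → ‖b‖ < ρ → ∀ w z, Mid (e x a) w z →
      dist (e x ((1 / 2 : ℝ) • V)) w < ρ →
      cost (e x b) z - cost (e x a) z ≤ -inner ℝ V (b - a) + ε * ‖b - a‖ := by
  have h1 := smul_mem_injDomain F.isExp hV (t := 1 / 2) (by norm_num) (by norm_num)
  obtain ⟨ρ, hρ, h⟩ := strict F (injDomain_subset_segMin F.isExp x h1) (F.smooth_cost x _ h1)
    (half_pos hε)
  refine ⟨ρ, hρ, fun a b ha hb w z hm hw => ?_⟩
  have h2 := h a b ha hb w hw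
  have h3 := hm.le (e x b)
  rw [real_inner_smul_left] at h2
  linarith

/-- If `y` close to `q` supports `φ` at `x`, then `q` almost supports `φ` at `x`. -/
lemma transversal (F : Facts e) {φ : M → ℝ} (hφ : Continuous φ) (q : M) {ε : ℝ} (hε : 0 < ε) :
    ∃ ρ > 0, ∀ x y : M, dist q y < ρ → y ∈ cSubdiff φ x →
      ∀ x₀, φ x + cost x q - cost x₀ q ≤ φ x₀ + ε * dist q y := by
  have key : ∀ᶠ y in 𝓝 q, ∀ p ∈ (univ : Set (M × M)), y ∈ cSubdiff φ p.1 → Mid y p.2 p.1 →
      ∀ x₀, φ p.1 + cost p.1 q - cost x₀ q ≤ φ x₀ + ε * dist q y := by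
    refine isCompact_univ.eventually_forall_of_forall_eventually fun p _ => ?_
    by_cases hp : q ∈ cSubdiff φ p.1 ∧ Mid q p.2 p.1
    · obtain ⟨V, hV, -, hw⟩ := hp.2.vec F
      obtain ⟨ρ, hρ, h⟩ := onesided F hV (half_pos hε)
      rw [hw] at h
      have e1 : ∀ᶠ z : M × M × M in 𝓝 (q, p), dist q z.1 < ρ :=
        (continuous_const.dist continuous_fst).continuousAt.eventually_lt continuousAt_const
          (by simpa using hρ)
      have e2 : ∀ᶠ z : M × M × M in 𝓝 (q, p), dist p.2 z.2.2 < ρ :=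
        (continuous_const.dist continuous_snd.snd).continuousAt.eventually_lt continuousAt_const
          (by simpa using hρ)
      filter_upwards [e1, e2] with z z1 z2 hz hm x₀
      obtain ⟨β, hβ, hd⟩ := F.hopfRinow q z.1
      have h0 : ‖(0 : TangentSpace 𝓘(ℝ, E) q)‖ < ρ := by simpa using hρ
      have a1 := h 0 β h0 (hd ▸ z1) p.2 p.1 (by rw [F.isExp.map_zero]; exact hp.2)
        (by simpa using hρ)
      have a2 := h β 0 (hd ▸ z1) h0 z.2.2 z.2.1 (by rw [hβ]; exact hm) z2
      rw [F.isExp.map_zero, hβ] at a1 a2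
      rw [sub_zero, ← hd] at a1
      rw [zero_sub, inner_neg_right, norm_neg, ← hd] at a2
      have a3 := hz p.1
      have a4 := hp.1 x₀
      rw [cost_comm z.1, cost_comm q] at a1 a2
      linarith
    · have hc : IsClosed {z : M × M × M | z.1 ∈ cSubdiff φ z.2.1 ∧ Mid z.1 z.2.2 z.2.1} :=
        (isClosed_sub hφ continuous_snd.fst continuous_fst).inter
          (isClosed_mid continuous_fst continuous_snd.snd continuous_snd.fst)
      filter_upwards [hc.isOpen_compl.mem_nhds (show (q, p) ∈ _ from hp)] with z hz h1 h2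
      exact absurd ⟨h1, h2⟩ hz
  obtain ⟨ρ, hρ, h⟩ := Metric.eventually_nhds_iff.1 key
  refine ⟨ρ, hρ, fun x y hy hx => ?_⟩
  obtain ⟨w, hw⟩ := exists_mid F y x
  exact h (by rwa [dist_comm]) (x, w) (mem_univ _) hx hw

end Vale.Agent.N234
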