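import Vale.Agent.N234.Vol

/-!
# P234: on a surface with Loeper's maximum principle, a potential whose inverse subdifferential
does not shrink areas too much has exactly one minimizing vector at each point
-/

set_option maxSynthPendingDepth 3
set_option linter.unusedSectionVars false

open Bundle Manifold Set Filter MeasureTheory Module Metric
open scoped ContDiff Manifold Topology ENNReal

namespace Vale.Agent.N234

open Vale.Agent.P234

/-- Area of the `δ`-neighbourhood of a curve with a lower Lipschitz bound. -/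
lemma area_tube {M : Type*} [MetricSpace M] [CompactSpace M] [MeasurableSpace M] [BorelSpace M]
    {m : Measure M} {Y : ℝ → M} {A : Set ℝ} {β c δ : ℝ} (hβ : 0 < β) (hc : 0 < c) (hδ : 0 < δ)
    (hY : ∀ s ∈ A, ∀ t ∈ A, β * |t - s| ≤ dist (Y s) (Y t))
    (hm : ∀ y, ENNReal.ofReal (c * δ ^ 2) ≤ m (closedBall y δ)) :
    ENNReal.ofReal (c * β * δ / 10) * volume A ≤ m (cthickening δ (Y '' A)) := by
  obtain ⟨u, huA, hdis, hcov⟩ := Vitali.exists_disjoint_subfamily_covering_enlargement_closedBall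
    A Y (fun _ => δ) δ (fun _ _ => le_rfl) 5 (by norm_num)
  have hu : u.Countable := hdis.countable_of_nonempty_interior fun t _ =>
    ⟨Y t, ball_subset_interior_closedBall (mem_ball_self hδ)⟩
  have h1 : A ⊆ ⋃ s ∈ u, closedBall s (5 * δ / β) := fun t ht => by
    obtain ⟨s, hs, h⟩ := hcov t ht
    refine mem_biUnion hs ?_
    have h2 := h (mem_closedBall_self hδ.le)
    rw [mem_closedBall, dist_comm] at h2
    rw [mem_closedBall, Real.dist_eq, le_div_iff₀ hβ, mul_comm]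
    exact (hY s (huA hs) t ht).trans h2
  have h2 := (measure_mono (μ := volume) h1).trans (measure_biUnion_le _ hu _)
  calc ENNReal.ofReal (c * β * δ / 10) * volume A
      ≤ ENNReal.ofReal (c * β * δ / 10) * ∑' s : u, volume (closedBall (s : ℝ) (5 * δ / β)) := by
        gcongr
    _ = ∑' _ : u, ENNReal.ofReal (c * δ ^ 2) := by
        rw [← ENNReal.tsum_mul_left]
        refine tsum_congr fun s => ?_
        rw [Real.volume_closedBall, ← ENNReal.ofReal_mul (by positivity)]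
        congr 1
        field_simp
        ring
    _ ≤ ∑' s : u, m (closedBall (Y s) δ) := ENNReal.tsum_le_tsum fun s => hm _
    _ = m (⋃ s ∈ u, closedBall (Y s) δ) :=
        (measure_biUnion hu hdis fun _ _ => measurableSet_closedBall).symm
    _ ≤ _ := measure_mono (iUnion₂_subset fun s hs =>
        closedBall_subset_cthickening (mem_image_of_mem Y (huA hs)) δ)

variable {E : Type*} [NormedAddCommGroup E] [NormedSpace ℝ E] [FiniteDimensional ℝ E]
  {M : Type*} [MetricSpace M] [ChartedSpace E M]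
  [RiemannianBundle (fun x : M => TangentSpace 𝓘(ℝ, E) x)]
  [IsManifold 𝓘(ℝ, E) ∞ M]
  [IsContMDiffRiemannianBundle 𝓘(ℝ, E) ∞ E (fun x : M => TangentSpace 𝓘(ℝ, E) x)]
  [CompactSpace M] [MeasurableSpace M] [BorelSpace M]
  {e : ∀ x : M, TangentSpace 𝓘(ℝ, E) x → M}

/-- No quasi-convex family of supports at one point. -/
lemma no_curve (F : Facts e) (hE : finrank ℝ E = 2) {φ : M → ℝ} (hφ : Continuous φ) {κ : ℝ≥0∞}
    (hκ : κ ≠ ⊤)
    (H : ∀ B : Set M, IsClosed B → μHE[2] B ≤ κ * μHE[2] {x | ∃ y ∈ B, y ∈ cSubdiff φ x})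
    {x₀ : M} {Y : ℝ → M} {β : ℝ} (hβ : 0 < β)
    (hco : ∀ s ∈ Icc (5 / 8 : ℝ) 1, ∀ t ∈ Icc (5 / 8 : ℝ) 1, β * |t - s| ≤ dist (Y s) (Y t))
    (hsub : ∀ t ∈ Icc (5 / 8 : ℝ) 1, Y t ∈ cSubdiff φ x₀)
    (hqc : ∀ (x : M) (s t u : ℝ), 5 / 8 ≤ s → s ≤ t → t ≤ u → u ≤ 1 →
      cost x₀ (Y t) - cost x (Y t) ≤
        max (cost x₀ (Y s) - cost x (Y s)) (cost x₀ (Y u) - cost x (Y u))) : False := by
  have hne : ∀ s ∈ Icc (5 / 8 : ℝ) 1, ∀ t ∈ Icc (5 / 8 : ℝ) 1, s ≠ t → Y s ≠ Y t := by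
    intro s hs t ht hst h
    have h1 := hco s hs t ht
    rw [h, dist_self] at h1
    exact absurd h1 (not_le.2 (mul_pos hβ (abs_pos.2 (sub_ne_zero.2 hst.symm))))
  obtain ⟨C₁, hC₁, h₁⟩ := area_level F hE
    (hne (5 / 8) (by norm_num) (6 / 8) (by norm_num) (by norm_num))
  obtain ⟨C₂, hC₂, h₂⟩ := area_level F hE (hne 1 (by norm_num) (7 / 8) (by norm_num) (by norm_num))
  obtain ⟨c, hc, ρ, hρ, hdisc⟩ := area_disc F hE
  have hk0 : 0 ≤ κ.toReal * (C₁ + C₂) := by positivity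
  set ε := c * β / (320 * (κ.toReal * (C₁ + C₂) + 1)) with hεdef
  have hε : 0 < ε := by positivity
  set A : ℕ → Set ℝ := fun k => {t ∈ Icc (6 / 8 : ℝ) (7 / 8) | ∀ x y : M,
    dist (Y t) y < 1 / ((k : ℝ) + 1) → y ∈ cSubdiff φ x →
      φ x + cost x (Y t) - cost x₀ (Y t) ≤ φ x₀ + ε * dist (Y t) y} with hA
  have hmono : Monotone A := monotone_nat_of_le_succ fun k t ht =>
    ⟨ht.1, fun x y hy => ht.2 x y (hy.trans_le (by push_cast; gcongr; linarith))⟩
  have hun : Icc (6 / 8 : ℝ) (7 / 8) ⊆ ⋃ k, A k := fun t ht => by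
    obtain ⟨r, hr, h⟩ := transversal F hφ (Y t) hε
    obtain ⟨k, hk⟩ := exists_nat_one_div_lt hr
    exact mem_iUnion.2 ⟨k, ht, fun x y hy hx => h x y (hy.trans hk) hx x₀⟩
  have hvol : ENNReal.ofReal (1 / 16) < ⨆ k, volume (A k) := by
    rw [← hmono.measure_iUnion]
    refine lt_of_lt_of_le ?_ (measure_mono hun)
    rw [Real.volume_Icc]
    exact (ENNReal.ofReal_lt_ofReal_iff (by norm_num)).2 (by norm_num)
  obtain ⟨k, hk⟩ := lt_iSup_iff.1 hvol
  set δ := min ρ (min (1 / ((k : ℝ) + 1) / 2) (1 / (2 * ε))) with hδdef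
  have hδ : 0 < δ := by positivity
  have d1 : δ ≤ ρ := min_le_left _ _
  have d2 : δ ≤ 1 / ((k : ℝ) + 1) / 2 := (min_le_right _ _).trans (min_le_left _ _)
  have d3 : δ * (2 * ε) ≤ 1 :=
    (le_div_iff₀ (by positivity)).1 ((min_le_right _ _).trans (min_le_right _ _))
  have hAI : ∀ t ∈ A k, t ∈ Icc (5 / 8 : ℝ) 1 := fun t ht =>
    ⟨by linarith [ht.1.1], by linarith [ht.1.2]⟩
  have low := area_tube (m := μHE[2]) hβ hc hδ (fun s hs t ht => hco s (hAI s hs) t (hAI t ht))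
    fun y => hdisc y δ hδ.le d1
  have hη : 0 < δ * (2 * ε) := by positivity
  have up : μHE[2] {x | ∃ y ∈ cthickening δ (Y '' A k), y ∈ cSubdiff φ x} ≤
      ENNReal.ofReal ((C₁ + C₂) * (δ * (2 * ε))) := by
    rw [add_mul, ENNReal.ofReal_add (by positivity) (by positivity)]
    refine le_trans (measure_mono ?_) ((measure_union_le _ _).trans (add_le_add
      (h₁ (cost x₀ (Y (5 / 8)) - cost x₀ (Y (6 / 8))) _ hη d3)
      (h₂ (cost x₀ (Y 1) - cost x₀ (Y (7 / 8))) _ hη d3)))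
    rintro x ⟨y, hy, hx⟩
    obtain ⟨_, ⟨t, ht, rfl⟩, hd⟩ := mem_thickening_iff.1
      (cthickening_subset_thickening' (δ₂ := 2 * δ) (by positivity) (by linarith) _ hy)
    rw [dist_comm] at hd
    have a1 := ht.2 x y (by linarith) hx
    have a2 := mul_le_mul_of_nonneg_left hd.le hε.le
    have b1 := hsub (5 / 8) (by norm_num) x
    have b2 := hsub (6 / 8) (by norm_num) x
    have b3 := hsub (7 / 8) (by norm_num) x
    have b4 := hsub 1 (by norm_num) x
    have q1 := hqc x (5 / 8) t (7 / 8) le_rfl (hAI t ht).1 ht.1.2 (by norm_num)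
    have q2 := hqc x (5 / 8) t 1 le_rfl (hAI t ht).1 (hAI t ht).2 le_rfl
    have q3 := hqc x (6 / 8) t (7 / 8) (by norm_num) ht.1.1 ht.1.2 (by norm_num)
    have q4 := hqc x (6 / 8) t 1 (by norm_num) ht.1.1 (hAI t ht).2 le_rfl
    simp only [mem_union, mem_ofPred_eq, abs_le]
    rw [le_max_iff] at q1 q2 q3 q4
    by_cases c1 : cost x₀ (Y t) - cost x (Y t) ≤ cost x₀ (Y (5 / 8)) - cost x (Y (5 / 8))
    · by_cases c2 : cost x₀ (Y t) - cost x (Y t) ≤ cost x₀ (Y (6 / 8)) - cost x (Y (6 / 8))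
      · left
        constructor <;> linarith
      · right
        have c3 := q3.resolve_left c2
        have c4 := q4.resolve_left c2
        constructor <;> linarith
    · right
      have c3 := q1.resolve_left c1
      have c4 := q2.resolve_left c1
      constructor <;> linarith
  have fin : ENNReal.ofReal (c * β * δ / 10 * (1 / 16)) ≤
      ENNReal.ofReal (κ.toReal * ((C₁ + C₂) * (δ * (2 * ε)))) := by
    rw [ENNReal.ofReal_mul (by positivity), ENNReal.ofReal_mul ENNReal.toReal_nonneg,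
      ENNReal.ofReal_toReal hκ]
    refine le_trans ?_ (low.trans ((H _ isClosed_cthickening).trans ?_))
    · gcongr
    · gcongr
  rw [ENNReal.ofReal_le_ofReal_iff (by positivity)] at fin
  have e1 : ε * (320 * (κ.toReal * (C₁ + C₂) + 1)) = c * β := by
    rw [hεdef]
    field_simp
  have e2 : c * β * δ / 10 * (1 / 16) =
      κ.toReal * ((C₁ + C₂) * (δ * (2 * ε))) + δ * (2 * ε) := by
    rw [← e1]
    ring
  linarith

/-- Exactly one minimizing vector. -/
theorem single (F : Facts e) (hE : finrank ℝ E = 2) (hL : LoeperMax e) {φ : M → ℝ}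
    (hφ : Continuous φ) {κ : ℝ≥0∞} (hκ : κ ≠ ⊤)
    (H : ∀ B : Set M, IsClosed B → μHE[2] B ≤ κ * μHE[2] {x | ∃ y ∈ B, y ∈ cSubdiff φ x})
    {x₀ : M} {p q : TangentSpace 𝓘(ℝ, E) x₀} (hp : p ∈ segMin e x₀) (hq : q ∈ segMin e x₀)
    (gp : e x₀ p ∈ cSubdiff φ x₀) (gq : e x₀ q ∈ cSubdiff φ x₀) : p = q := by
  by_contra hne
  wlog hle : ‖p‖ ≤ ‖q‖ generalizing p q
  · exact this hq hp gq gp (Ne.symm hne) (le_of_not_ge hle)
  set P : ℝ → TangentSpace 𝓘(ℝ, E) x₀ := fun t => (1 - t) • p + t • q with hP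
  have hmin : ∀ t ∈ Icc (5 / 8 : ℝ) 1, dist x₀ (e x₀ (P t)) = ‖P t‖ := fun t ht =>
    (hL x₀ p q t hp hq (by linarith [ht.1]) ht.2).1
  have h0 : 0 < ‖q - p‖ := norm_pos_iff.2 (sub_ne_zero.2 (Ne.symm hne))
  set D := diam (univ : Set M) + 1 with hD
  have hD0 : 0 < D := by
    have : 0 ≤ diam (univ : Set M) := diam_nonneg
    linarith
  have hsq : ∀ t : ℝ, ‖P t‖ ^ 2 = ‖p‖ ^ 2 + 2 * t * inner ℝ p (q - p) + t ^ 2 * ‖q - p‖ ^ 2 := by
    intro t
    have : P t = p + t • (q - p) := by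
      simp only [hP, smul_sub, sub_smul, one_smul]
      abel
    rw [this, norm_add_sq_real, real_inner_smul_right, norm_smul, mul_pow, Real.norm_eq_abs,
      sq_abs]
    ring
  have hv : 0 ≤ 2 * inner ℝ p (q - p) + ‖q - p‖ ^ 2 := by
    have h1 := hsq 1
    have h2 : P 1 = q := by simp [hP]
    have h3 := pow_le_pow_left₀ (norm_nonneg p) hle 2
    rw [h2] at h1
    linarith
  have hco : ∀ s ∈ Icc (5 / 8 : ℝ) 1, ∀ t ∈ Icc (5 / 8 : ℝ) 1, s ≤ t →
      ‖q - p‖ ^ 2 / (8 * D) * (t - s) ≤ dist (e x₀ (P s)) (e x₀ (P t)) := by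
    intro s hs t ht hst
    have h1 := Reg.cost_sub_cost_le (e x₀ (P s)) (e x₀ (P t)) x₀
    rw [cost, cost, dist_comm _ x₀, dist_comm _ x₀, hmin s hs, hmin t ht, hsq, hsq] at h1
    rw [div_mul_eq_mul_div, div_le_iff₀ (by positivity)]
    have h2 : 0 ≤ dist (e x₀ (P s)) (e x₀ (P t)) := dist_nonneg
    have h3 := mul_nonneg (sub_nonneg.2 hst) hv
    have h4 : 0 ≤ (t - s) * ‖q - p‖ ^ 2 * (t + s - 5 / 4) :=
      mul_nonneg (mul_nonneg (sub_nonneg.2 hst) (sq_nonneg _)) (by linarith [hs.1, ht.1])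
    rw [hD]
    nlinarith
  refine no_curve F hE hφ hκ H (x₀ := x₀) (Y := fun t => e x₀ (P t))
    (β := ‖q - p‖ ^ 2 / (8 * D)) (by positivity) (fun s hs t ht => ?_) (fun t ht x => ?_)
    fun x s t u h1 h2 h3 h4 => ?_
  · rcases le_total s t with h | h
    · rw [abs_of_nonneg (sub_nonneg.2 h)]
      exact hco s hs t ht h
    · rw [abs_sub_comm, abs_of_nonneg (sub_nonneg.2 h), dist_comm]
      exact hco t ht s hs h
  · have h1 := (hL x₀ p q t hp hq (by linarith [ht.1]) ht.2).2 x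
    have h2 := gp x
    have h3 := gq x
    rcases le_max_iff.1 h1 with h | h <;> linarith
  · rcases (h2.trans h3).eq_or_lt with rfl | hsu
    · rw [le_antisymm h3 h2]
      exact le_max_left _ _
    · have h5 : 0 < u - s := sub_pos.2 hsu
      have h6 := (hL x₀ (P s) (P u) ((t - s) / (u - s)) (hmin s ⟨h1, by linarith⟩)
        (hmin u ⟨by linarith, h4⟩) (div_nonneg (sub_nonneg.2 h2) h5.le)
        ((div_le_one h5).2 (by linarith))).2 x
      have h7 : (1 - (t - s) / (u - s)) • P s + ((t - s) / (u - s)) • P u = P t := by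
        simp only [hP, smul_add, smul_smul]
        rw [add_add_add_comm, ← add_smul, ← add_smul]
        congr 2 <;> field_simp <;> ring
      rwa [h7] at h6

theorem subsingleton_sub (F : Facts e) (hE : finrank ℝ E = 2) (hL : LoeperMax e) {φ : M → ℝ}
    (hφ : Continuous φ) {κ : ℝ≥0∞} (hκ : κ ≠ ⊤)
    (H : ∀ B : Set M, IsClosed B → μHE[2] B ≤ κ * μHE[2] {x | ∃ y ∈ B, y ∈ cSubdiff φ x})
    (x : M) : (cSubdiff φ x).Subsingleton := by
  intro y hy z hz
  obtain ⟨p, rfl, hp⟩ := F.hopfRinow x y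
  obtain ⟨q, rfl, hq⟩ := F.hopfRinow x z
  rw [single F hE hL hφ hκ H hp hq hy hz]

end Vale.Agent.N234
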