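import Vale.Agent.N234.Defs
import Vale.Agent.N234.Dual
import Vale.Agent.N234.Single
import Vale.Agent.P234Z57.Geo

/-!
# P234: continuity of optimal transport on surfaces under weak MTW
-/

set_option maxSynthPendingDepth 3
set_option linter.unusedSectionVars false

open Bundle Manifold Set Filter MeasureTheory Module Metric
open scoped ContDiff Manifold Topology ENNReal

namespace Vale.Agent.N234

open Vale.Agent.P234

section measure

variable {M : Type*} [MetricSpace M] [CompactSpace M] [MeasurableSpace M] [BorelSpace M]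

/-- The inverse subdifferential of `φ` shrinks `m` by at most the factor `κ`. -/
def Spread (m : Measure M) (κ : ℝ≥0∞) (φ : M → ℝ) : Prop :=
  ∀ B : Set M, IsClosed B → m B ≤ κ * m {x | ∃ y ∈ B, y ∈ cSubdiff φ x}

lemma spread_of {m μ ν : Measure M} {a b : ℝ≥0∞} (ha : a ≠ 0) (ha' : a ≠ ⊤) (hμ : μ ≤ b • m)
    (hν : a • m ≤ ν) {φ : M → ℝ}
    (H : ∀ B : Set M, IsClosed B → ν B ≤ μ {x | ∃ y ∈ B, y ∈ cSubdiff φ x}) :
    Spread m (a⁻¹ * b) φ := fun B hB => by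
  have h1 := (hν B).trans ((H B hB).trans (hμ _))
  simp only [Measure.smul_apply, smul_eq_mul] at h1
  rw [mul_assoc]
  calc m B = a⁻¹ * (a * m B) := by rw [← mul_assoc, ENNReal.inv_mul_cancel ha ha', one_mul]
    _ ≤ _ := by gcongr

lemma exists_map [Nonempty M] {m : Measure M}
    (hA : ∀ κ : ℝ≥0∞, κ ≠ ⊤ → ∀ φ : M → ℝ, Continuous φ → Spread m κ φ →
      ∀ x, (cSubdiff φ x).Subsingleton)
    {a b : ℝ≥0∞} (ha : a ≠ 0) (ha' : a ≠ ⊤) (hb : b ≠ ⊤) (μ ν : Measure M)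
    [IsProbabilityMeasure μ] [IsProbabilityMeasure ν] (hμ : μ ≤ b • m) (hν : a • m ≤ ν) :
    ∃ (φ : M → ℝ) (S : M → M), CConvex φ ∧ Spread m (a⁻¹ * b) φ ∧ (∀ x, cSubdiff φ x = {S x}) ∧
      Continuous S ∧ IsOnlyPlan μ ν S := by
  obtain ⟨φ, hφ, H⟩ := exists_potential μ ν
  have hs := spread_of ha ha' hμ hν H
  have h1 := hA _ (ENNReal.mul_ne_top (ENNReal.inv_ne_top.2 ha) hb) φ
    (Reg.CConvex.continuous hφ) hs
  choose S hS using fun x => Reg.CConvex.nonempty hφ x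
  have h2 : ∀ x, cSubdiff φ x = {S x} := fun x => (h1 x).eq_singleton_of_mem (hS x)
  exact ⟨φ, S, hφ, hs, h2, plan_of_potential μ ν (Reg.CConvex.continuous hφ) h2 H⟩

lemma graph_plan {μ : Measure M} {f g : M → M} (hf : Measurable f) (hg : Measurable g) :
    (μ.map fun x => (f x, g x)).map Prod.fst = μ.map f ∧
      (μ.map fun x => (f x, g x)).map Prod.snd = μ.map g ∧
      ∫ p, cost p.1 p.2 ∂(μ.map fun x => (f x, g x)) = ∫ x, cost (f x) (g x) ∂μ :=
  ⟨Measure.map_map measurable_fst (hf.prodMk hg), Measure.map_map measurable_snd (hf.prodMk hg),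
    integral_map (hf.prodMk hg).aemeasurable continuous_cost.aestronglyMeasurable⟩

lemma right_inverse {μ ν : Measure M} [ν.IsOpenPosMeasure] {S T : M → M} (hS : Continuous S)
    (hT : Continuous T) (h : IsOnlyPlan μ ν S) (h' : IsOnlyPlan ν μ T) (y : M) : S (T y) = y := by
  obtain ⟨a1, a2, a3⟩ := graph_plan (μ := ν) hT.measurable measurable_id
  obtain ⟨b1, b2, b3⟩ := graph_plan (μ := μ) hS.measurable measurable_id
  have c1 := (h'.2 _ (b1.trans h.1) (b2.trans Measure.map_id)).1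
  have c2 := (h.2 _ (a1.trans h'.1) (a2.trans Measure.map_id)).2 (by
    rw [a3]
    rw [b3] at c1
    simpa only [cost_comm, id] using c1)
  have c3 := ae_of_ae_map (hT.measurable.prodMk measurable_id).aemeasurable c2
  exact (congrFun (Measure.eq_of_ae_eq (μ := ν) (f := id) (g := fun y => S (T y)) c3
    continuous_id (hS.comp hT)) y).symm

lemma IsDensity.facts {m : Measure M} [IsFiniteMeasure m] {ρ : M → ℝ} (h : IsDensity m ρ) :
    IsProbabilityMeasure (m.withDensity fun x => ENNReal.ofReal (ρ x)) ∧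
      (∃ a b : ℝ≥0∞, a ≠ 0 ∧ a ≠ ⊤ ∧ b ≠ ⊤ ∧
        a • m ≤ m.withDensity (fun x => ENNReal.ofReal (ρ x)) ∧
        m.withDensity (fun x => ENNReal.ofReal (ρ x)) ≤ b • m) ∧
      ∀ f : M → ℝ, ∫ x, f x ∂(m.withDensity fun x => ENNReal.ofReal (ρ x)) = ∫ x, f x * ρ x ∂m := by
  obtain ⟨hm, h1, a, b, ha, hab⟩ := h
  have h0 : 0 ≤ᵐ[m] ρ := hab.mono fun x hx => ha.le.trans hx.1
  refine ⟨⟨?_⟩, ⟨ENNReal.ofReal a, ENNReal.ofReal b, by simpa using ha, ENNReal.ofReal_ne_top,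
    ENNReal.ofReal_ne_top, ?_, ?_⟩, fun f => ?_⟩
  · rw [withDensity_apply _ MeasurableSet.univ, Measure.restrict_univ,
      ← ofReal_integral_eq_lintegral_ofReal (Integrable.of_integral_ne_zero (by simp [h1])) h0, h1,
      ENNReal.ofReal_one]
  · rw [← withDensity_const]
    exact withDensity_mono (hab.mono fun x hx => ENNReal.ofReal_le_ofReal hx.1)
  · rw [← withDensity_const]
    exact withDensity_mono (hab.mono fun x hx => ENNReal.ofReal_le_ofReal hx.2)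
  · rw [integral_withDensity_eq_integral_toReal_smul hm.ennreal_ofReal (by simp)]
    refine integral_congr_ae (h0.mono fun x hx => ?_)
    simp only [smul_eq_mul]
    rw [ENNReal.toReal_ofReal hx, mul_comm]

theorem tcp [Nonempty M] {m : Measure M} [IsFiniteMeasure m]
    (hA : ∀ κ : ℝ≥0∞, κ ≠ ⊤ → ∀ φ : M → ℝ, Continuous φ → Spread m κ φ →
      ∀ x, (cSubdiff φ x).Subsingleton) : TransportContinuity m := by
  intro ρ₀ ρ₁ h₀ h₁
  obtain ⟨p₀, ⟨a₀, b₀, ha₀, -, hb₀, l₀, u₀⟩, i₀⟩ := h₀.facts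
  obtain ⟨p₁, ⟨a₁, b₁, ha₁, ha₁', -, l₁, -⟩, -⟩ := h₁.facts
  obtain ⟨φ, S, -, -, -, hS, hP⟩ := exists_map hA ha₁ ha₁' hb₀ _ _ u₀ l₁
  have key := fun (T : M → M) (hT : IsTransport m ρ₀ ρ₁ T) =>
    hP.2 _ ((graph_plan measurable_id hT.1).1.trans Measure.map_id)
      ((graph_plan measurable_id hT.1).2.1.trans hT.2)
  refine ⟨⟨S, ⟨hS.measurable, hP.1⟩, fun T hT => ?_⟩, fun T hT => ⟨S, hS, ?_⟩⟩
  · have h1 := (key T hT).1
    rwa [(graph_plan measurable_id hT.1).2.2, i₀, i₀] at h1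
  · have h1 := (key T hT.1).2 (by
      rw [(graph_plan measurable_id hT.1.1).2.2, i₀, i₀]
      exact hT.2 S ⟨hS.measurable, hP.1⟩)
    have h2 := ae_of_ae_map (measurable_id.prodMk hT.1.1).aemeasurable h1
    exact ((Measure.absolutelyContinuous_smul ha₀).trans l₀.absolutelyContinuous).ae_le h2

theorem modulus {m : Measure M} [IsFiniteMeasure m] {κ : ℝ≥0∞} (hκ : κ ≠ ⊤)
    (hA : ∀ φ : M → ℝ, Continuous φ → Spread m κ φ → ∀ x, (cSubdiff φ x).Subsingleton) :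
    ∃ w : ℝ → ℝ, Tendsto w (𝓝 0) (𝓝 0) ∧ ∀ φ : M → ℝ, CConvex φ → Spread m κ φ →
      ∀ a b y z : M, y ∈ cSubdiff φ a → z ∈ cSubdiff φ b → dist y z ≤ w (dist a b) := by
  set W : ℝ → Set ℝ := fun r => {d | ∃ (φ : M → ℝ) (a b y z : M), CConvex φ ∧ Spread m κ φ ∧
    y ∈ cSubdiff φ a ∧ z ∈ cSubdiff φ b ∧ dist a b = r ∧ dist y z = d} with hW
  refine ⟨fun r => sSup (W r), Metric.tendsto_nhds_nhds.2 fun ε hε => ?_,
    fun φ h1 h2 a b y z hy hz => le_csSup ⟨diam (univ : Set M), ?_⟩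
      ⟨φ, a, b, y, z, h1, h2, hy, hz, rfl, rfl⟩⟩
  · obtain ⟨δ, hδ, h⟩ := equi_of_subsingleton m κ hκ hA (half_pos hε)
    refine ⟨δ, hδ, fun r hr => ?_⟩
    rw [Real.dist_eq, sub_zero] at hr ⊢
    have h1 : sSup (W r) ≤ ε / 2 := Real.sSup_le (by
      rintro _ ⟨φ, a, b, y, z, h1, h2, hy, hz, rfl, rfl⟩
      exact (h φ h1 h2 a b y z hy hz ((le_abs_self _).trans_lt hr)).le) (half_pos hε).le
    have h2 : 0 ≤ sSup (W r) := Real.sSup_nonneg (by
      rintro _ ⟨φ, a, b, y, z, -, -, -, -, -, rfl⟩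
      exact dist_nonneg)
    rw [abs_of_nonneg h2]
    linarith
  · rintro _ ⟨φ, a, b, y, z, -, -, -, -, -, rfl⟩
    exact dist_le_diam_of_mem isCompact_univ.isBounded (mem_univ _) (mem_univ _)

end measure

open Vale.Agent.P234Z57

variable {E : Type*} [NormedAddCommGroup E] [NormedSpace ℝ E] [FiniteDimensional ℝ E]
  {M : Type*} [MetricSpace M] [ChartedSpace E M] [IsManifold 𝓘(ℝ, E) ∞ M]
  [RiemannianBundle (fun x : M => TangentSpace 𝓘(ℝ, E) x)]
  [IsContMDiffRiemannianBundle 𝓘(ℝ, E) ∞ E (fun x : M => TangentSpace 𝓘(ℝ, E) x)]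
  [IsRiemannianManifold 𝓘(ℝ, E) M] {e : ∀ x : M, TangentSpace 𝓘(ℝ, E) x → M}

theorem ray_geo (he : IsExp e) (x : M) (v : TangentSpace 𝓘(ℝ, E) x) :
    IsGeodesic E (fun t : ℝ => e x (t • v)) ∧ Starts (fun t : ℝ => e x (t • v)) x v := by
  constructor
  · by_cases hv : v = 0
    · have : (fun t : ℝ => e x (t • v)) = fun _ => x := by
        funext t
        rw [hv, smul_zero, he.map_zero]
      rw [this]
      exact geo_const x
    · have h0 : 0 < ‖v‖ := norm_pos_iff.2 hv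
      obtain ⟨ρ, hρ, h⟩ := he.minimizing
      refine geo_of_locMin h0 fun t => ⟨ρ / ‖v‖ / 2, by positivity, fun s₁ s₂ h1 h2 => ?_⟩
      rw [abs_sub_comm s₁ s₂]
      refine h x v s₁ s₂ ?_
      have h3 : |s₂ - s₁| ≤ ρ / ‖v‖ := by
        have := abs_sub_le s₂ t s₁
        rw [abs_sub_comm t s₁] at this
        linarith
      rwa [le_div_iff₀ h0, mul_comm] at h3
  · have h1 : e x ((0 : ℝ) • v) = x := by rw [zero_smul, he.map_zero]
    exact TotalSpace.ext h1 (heq_of_eq (he.velocity x v))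

theorem exp_eq (he : IsExp e) : (exp : ∀ x : M, TangentSpace 𝓘(ℝ, E) x → M) = e := by
  funext x v
  have h1 := @Classical.epsilon_spec (ℝ → M) (fun c => IsGeodesic E c ∧ Starts c x v)
    ⟨_, ray_geo he x v⟩
  have h2 := geo_unique h1.1 (ray_geo he x v).1 h1.2 (ray_geo he x v).2
  have h3 := congrFun h2 1
  rw [one_smul] at h3
  exact h3

theorem surface [CompactSpace M] [Nonempty M] [MeasurableSpace M] [BorelSpace M] (F : Facts e)
    (hE : finrank ℝ E = 2) (hW : WeakMTW e) :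
    IsFiniteMeasure (μHE[2] : Measure M) ∧ (μHE[2] : Measure M).IsOpenPosMeasure ∧
    TransportContinuity (μHE[2] : Measure M) ∧
    ∀ a b : ℝ≥0∞, a ≠ 0 → b ≠ ⊤ → ∃ w : ℝ → ℝ, Tendsto w (𝓝 0) (𝓝 0) ∧
      ∀ μ ν : Measure M, IsProbabilityMeasure μ → IsProbabilityMeasure ν →
        μ ≤ b • μHE[2] → a • μHE[2] ≤ ν → ∃ S : M → M, Continuous S ∧
          (∀ x x', dist (S x) (S x') ≤ w (dist x x')) ∧ IsOnlyPlan μ ν S ∧
          (∀ x, ∃! v : TangentSpace 𝓘(ℝ, E) x, dist x (e x v) = ‖v‖ ∧ e x v = S x) ∧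
          (a • μHE[2] ≤ μ → ν ≤ b • μHE[2] → IsHomeomorph S) := by
  have hL : LoeperMax e := ((Reg.tfae F).out 0 1).1 hW
  have hfin := area_finite F hE
  have hpos := area_openPos F hE
  have hA : ∀ κ : ℝ≥0∞, κ ≠ ⊤ → ∀ φ : M → ℝ, Continuous φ → Spread μHE[2] κ φ →
      ∀ x, (cSubdiff φ x).Subsingleton := fun κ hκ φ hφ H => subsingleton_sub F hE hL hφ hκ H
  refine ⟨hfin, hpos, tcp hA, fun a b ha hb => ?_⟩
  have hκ : a⁻¹ * b ≠ ⊤ := ENNReal.mul_ne_top (ENNReal.inv_ne_top.2 ha) hb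
  obtain ⟨w, hw, h⟩ := modulus hκ (hA _ hκ)
  refine ⟨w, hw, fun μ ν _ _ hμ hν => ?_⟩
  have ha' : a ≠ ⊤ := by
    rintro rfl
    have h1 := hν univ
    rw [Measure.smul_apply, smul_eq_mul,
      ENNReal.top_mul (isOpen_univ.measure_ne_zero _ univ_nonempty), measure_univ] at h1
    exact absurd h1 (by simp)
  obtain ⟨φ, S, h1, h2, h3, h4, h5⟩ := exists_map hA ha ha' hb μ ν hμ hν
  refine ⟨S, h4, fun x x' => h φ h1 h2 x x' _ _ (h3 x ▸ rfl) (h3 x' ▸ rfl), h5, fun x => ?_,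
    fun hμ' hν' => ?_⟩
  · obtain ⟨v, hv, hd⟩ := F.hopfRinow x (S x)
    refine ⟨v, ⟨by rw [hv, hd], hv⟩, fun u hu => ?_⟩
    refine single F hE hL (Reg.CConvex.continuous h1) hκ h2 hu.1 (by
      change dist x (e x v) = ‖v‖
      rw [hv, hd]) ?_ ?_
    · rw [hu.2, h3]
      rfl
    · rw [hv, h3]
      rfl
  · obtain ⟨ψ, T, -, -, -, g4, g5⟩ := exists_map hA ha ha' hb ν μ hν' hμ'
    have := Measure.isOpenPosMeasure_smul (μHE[2] : Measure M) ha
    have := hν.isOpenPosMeasure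
    have := hμ'.isOpenPosMeasure
    exact isHomeomorph_iff_exists_inverse.2
      ⟨h4, T, right_inverse g4 h4 g5 h5, right_inverse h4 g4 h5 g5, g4⟩

end Vale.Agent.N234
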