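import Vale.Agent.N234.Geo

/-!
# P234: area of small discs and of thin level strips of a difference of two costs on a surface
-/

set_option maxSynthPendingDepth 3
set_option linter.unusedSectionVars false

open Bundle Manifold Set Filter MeasureTheory Module Metric
open scoped ContDiff Manifold Topology ENNReal

namespace Vale.Agent.N234

open Vale.Agent.P234

lemma area_lip {X Y : Type*} [MetricSpace X] [MeasurableSpace X] [BorelSpace X] [MetricSpace Y]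
    [MeasurableSpace Y] [BorelSpace Y] {f : X → Y} {S : Set X} (h : LipschitzOnWith 2 f S) :
    μHE[2] (f '' S) ≤ 4 * μHE[2] S := by
  have h1 := h.hausdorffMeasure_image_le (d := ((2 : ℕ) : ℝ)) (by positivity)
  rw [ENNReal.rpow_natCast] at h1
  simp only [Measure.euclideanHausdorffMeasure_def, Measure.smul_apply, ENNReal.smul_def,
    smul_eq_mul]
  rw [mul_left_comm]
  gcongr
  refine h1.trans (le_of_eq ?_)
  norm_num

section flat

variable {M : Type*} [MetricSpace M] [MeasurableSpace M] [BorelSpace M]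
  {V : Type*} [NormedAddCommGroup V] [InnerProductSpace ℝ V] [FiniteDimensional ℝ V]

lemma area_chart (hV : finrank ℝ V = 2) {f : V → M} {ρ : ℝ}
    (hf : ∀ a b, ‖a‖ < ρ → ‖b‖ < ρ → ‖a - b‖ ≤ 2 * dist (f a) (f b) ∧
      dist (f a) (f b) ≤ 2 * ‖a - b‖) :
    ∃ c > 0, ∃ C > 0, (∀ (S : Set V) (a : V) (r : ℝ), S ⊆ ball 0 ρ → 0 ≤ r → S ⊆ closedBall a r →
      μHE[2] (f '' S) ≤ ENNReal.ofReal (C * r ^ 2)) ∧
      ∀ (a : V) (r : ℝ), 0 ≤ r → closedBall a r ⊆ ball 0 ρ →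
        ENNReal.ofReal (c * r ^ 2) ≤ μHE[2] (f '' closedBall a r) := by
  let _ : MeasurableSpace V := borel V
  have : BorelSpace V := ⟨rfl⟩
  have : (μHE[2] : Measure V).IsAddHaarMeasure := by
    have := isAddHaarMeasure_euclideanHausdorffMeasure (E := V)
    rwa [hV] at this
  set b := (μHE[2] : Measure V) (ball 0 1) with hb
  have hb0 : b ≠ 0 := (measure_ball_pos _ _ one_pos).ne'
  have hb1 : b ≠ ⊤ := measure_ball_lt_top.ne
  have hb2 : 0 < b.toReal := ENNReal.toReal_pos hb0 hb1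
  have hball : ∀ (a : V) (r : ℝ), 0 ≤ r →
      (μHE[2] : Measure V) (closedBall a r) = ENNReal.ofReal (b.toReal * r ^ 2) := by
    intro a r hr
    rw [Measure.addHaar_closedBall _ _ hr, hV, ENNReal.ofReal_mul hb2.le,
      ENNReal.ofReal_toReal hb1, mul_comm]
  refine ⟨b.toReal / 4, by positivity, 4 * b.toReal, by positivity, fun S a r hS hr hS' => ?_,
    fun a r hr hS => ?_⟩
  · have h1 : LipschitzOnWith 2 f S := LipschitzOnWith.of_dist_le_mul fun u hu v hv => by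
      rw [dist_eq_norm u v]
      exact (hf u v (by simpa using hS hu) (by simpa using hS hv)).2
    refine (area_lip h1).trans ?_
    rw [mul_assoc, ENNReal.ofReal_mul (by norm_num), ← hball a r hr, ENNReal.ofReal_ofNat]
    gcongr
  · have hd : ∀ u ∈ closedBall a r, ∀ v ∈ closedBall a r, ‖u - v‖ ≤ 2 * dist (f u) (f v) :=
      fun u hu v hv => (hf u v (by simpa using hS hu) (by simpa using hS hv)).1
    have hinj : InjOn f (closedBall a r) := fun u hu v hv huv => by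
      have h1 := hd u hu v hv
      rw [huv, dist_self, mul_zero] at h1
      exact sub_eq_zero.1 (norm_le_zero_iff.1 h1)
    have hgf : ∀ u ∈ closedBall a r, Function.invFunOn f (closedBall a r) (f u) = u :=
      fun u hu => hinj.leftInvOn_invFunOn hu
    have himg : Function.invFunOn f (closedBall a r) '' (f '' closedBall a r) = closedBall a r := by
      rw [image_image]
      exact (image_congr hgf).trans (image_id' _)
    have h1 : LipschitzOnWith 2 (Function.invFunOn f (closedBall a r)) (f '' closedBall a r) := by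
      refine LipschitzOnWith.of_dist_le_mul ?_
      rintro _ ⟨u, hu, rfl⟩ _ ⟨v, hv, rfl⟩
      rw [hgf u hu, hgf v hv, dist_eq_norm]
      exact hd u hu v hv
    have h2 := area_lip h1
    rw [himg, hball a r hr] at h2
    have h3 : ENNReal.ofReal (b.toReal * r ^ 2) = 4 * ENNReal.ofReal (b.toReal / 4 * r ^ 2) := by
      rw [← ENNReal.ofReal_ofNat, ← ENNReal.ofReal_mul (by norm_num)]
      congr 1
      ring
    rw [h3] at h2
    exact (ENNReal.mul_le_mul_iff_right (by norm_num) (by norm_num)).1 h2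

lemma exists_normal (hV : finrank ℝ V = 2) {u : V} (hu : u ≠ 0) :
    ∃ k : V, ‖k‖ = 1 ∧ ∀ h : V, ‖u‖ * ‖h‖ ≤ |inner ℝ u h| + ‖u‖ * |inner ℝ k h| := by
  have h0 : 0 < ‖u‖ := norm_pos_iff.2 hu
  have h1 : Orthonormal ℝ (({0} : Set (Fin 2)).domRestrict fun _ : Fin 2 => ‖u‖⁻¹ • u) := by
    refine ⟨fun i => ?_, fun i j hij => absurd (Subsingleton.elim i j) hij⟩
    change ‖‖u‖⁻¹ • u‖ = 1
    rw [norm_smul, norm_inv, norm_norm, inv_mul_cancel₀ h0.ne']
  obtain ⟨b, hb⟩ := h1.exists_orthonormalBasis_extension_of_card_eq (by simpa using hV)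
  have hb0 : b 0 = ‖u‖⁻¹ • u := hb 0 rfl
  refine ⟨b 1, b.orthonormal.1 1, fun h => ?_⟩
  have h2 := b.sum_repr' h
  rw [Fin.sum_univ_two] at h2
  have h3 : ‖h‖ ≤ |inner ℝ (b 0) h| + |inner ℝ (b 1) h| := by
    conv_lhs => rw [← h2]
    refine (norm_add_le _ _).trans (le_of_eq ?_)
    rw [norm_smul, norm_smul, b.orthonormal.1 0, b.orthonormal.1 1, mul_one, mul_one,
      Real.norm_eq_abs, Real.norm_eq_abs]
  rw [hb0, real_inner_smul_left, abs_mul, abs_inv, abs_norm] at h3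
  have h4 := mul_le_mul_of_nonneg_left h3 h0.le
  rwa [mul_add, ← mul_assoc, mul_inv_cancel₀ h0.ne', one_mul] at h4

lemma area_strip {f : V → M} {ρ C A η : ℝ} (hρ : 0 < ρ) (hC : 0 < C) (hA : 0 < A) (hη : 0 < η)
    (hη1 : η ≤ 1) (hf : ∀ (S : Set V) (a : V) (r : ℝ), S ⊆ ball 0 ρ → 0 ≤ r → S ⊆ closedBall a r →
      μHE[2] (f '' S) ≤ ENNReal.ofReal (C * r ^ 2)) {k : V} (hk : ‖k‖ = 1) {S : Set V}
    (hS : S ⊆ ball 0 ρ) (h : ∀ a ∈ S, ∀ b ∈ S, |inner ℝ k (b - a)| ≤ η → ‖b - a‖ ≤ A * η) :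
    μHE[2] (f '' S) ≤ ENNReal.ofReal ((2 * ρ + 1) * C * A ^ 2 * η) := by
  set N := ⌊2 * ρ / η⌋₊ + 1 with hN
  set P : ℕ → Set V := fun j => {z ∈ S | j * η ≤ inner ℝ k z + ρ ∧ inner ℝ k z + ρ ≤ (j + 1) * η}
    with hP
  have hcov : f '' S ⊆ ⋃ j ∈ Finset.range N, f '' P j := by
    rintro _ ⟨z, hz, rfl⟩
    have h1 : ‖z‖ < ρ := by simpa using hS hz
    have h2 := abs_real_inner_le_norm k z
    rw [hk, one_mul, abs_le] at h2
    have h3 : 0 ≤ (inner ℝ k z + ρ) / η := div_nonneg (by linarith [h2.1]) hη.le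
    refine mem_biUnion (x := ⌊(inner ℝ k z + ρ) / η⌋₊) ?_ ⟨z, ⟨hz, ?_, ?_⟩, rfl⟩
    · refine Finset.mem_coe.2 (Finset.mem_range.2 (Nat.lt_succ_of_le (Nat.floor_le_floor ?_)))
      gcongr
      linarith [h2.2]
    · exact (le_div_iff₀ hη).1 (Nat.floor_le h3)
    · exact (div_le_iff₀ hη).1 (Nat.lt_floor_add_one _).le
  have hpiece : ∀ j, μHE[2] (f '' P j) ≤ ENNReal.ofReal (C * (A * η) ^ 2) := by
    intro j
    rcases (P j).eq_empty_or_nonempty with h0 | ⟨a, ha⟩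
    · simp [h0]
    · refine hf _ a _ (fun z hz => hS hz.1) (by positivity) fun b hb => ?_
      rw [mem_closedBall, dist_eq_norm]
      refine h a ha.1 b hb.1 ?_
      rw [inner_sub_right, abs_le]
      constructor <;> linarith [ha.2.1, ha.2.2, hb.2.1, hb.2.2]
  refine (measure_mono hcov).trans ((measure_biUnion_finset_le _ _).trans ?_)
  refine (Finset.sum_le_card_nsmul _ _ _ fun j _ => hpiece j).trans ?_
  rw [Finset.card_range, nsmul_eq_mul, ← ENNReal.ofReal_natCast,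
    ← ENNReal.ofReal_mul (Nat.cast_nonneg _)]
  refine ENNReal.ofReal_le_ofReal ?_
  have h1 : (N : ℝ) * η ≤ 2 * ρ + 1 := by
    have h2 : (⌊2 * ρ / η⌋₊ : ℝ) * η ≤ 2 * ρ :=
      (le_div_iff₀ hη).1 (Nat.floor_le (by positivity))
    rw [hN]
    push_cast
    linarith
  calc (N : ℝ) * (C * (A * η) ^ 2) = (N * η) * (C * A ^ 2 * η) := by ring
    _ ≤ (2 * ρ + 1) * (C * A ^ 2 * η) := by gcongr
    _ = _ := by ring

end flat

variable {E : Type*} [NormedAddCommGroup E] [NormedSpace ℝ E] [FiniteDimensional ℝ E]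
  {M : Type*} [MetricSpace M] [ChartedSpace E M]
  [RiemannianBundle (fun x : M => TangentSpace 𝓘(ℝ, E) x)]
  [IsManifold 𝓘(ℝ, E) ∞ M]
  [IsContMDiffRiemannianBundle 𝓘(ℝ, E) ∞ E (fun x : M => TangentSpace 𝓘(ℝ, E) x)]
  [CompactSpace M] [MeasurableSpace M] [BorelSpace M]
  {e : ∀ x : M, TangentSpace 𝓘(ℝ, E) x → M}

lemma chart (F : Facts e) (x : M) : ∃ ρ > 0, ∀ a b : TangentSpace 𝓘(ℝ, E) x, ‖a‖ < ρ → ‖b‖ < ρ →
    ‖a - b‖ ≤ 2 * dist (e x a) (e x b) ∧ dist (e x a) (e x b) ≤ 2 * ‖a - b‖ := by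
  obtain ⟨ρ, hρ, h⟩ := P231.exp_almost_isometry F x (ε := 1 / 2) (by norm_num)
  refine ⟨ρ, hρ, fun a b ha hb => ?_⟩
  have h1 : (1 - 1 / 2) * ‖a - b‖ ≤ dist (e x a) (e x b) ∧
      dist (e x a) (e x b) ≤ (1 + 1 / 2) * ‖a - b‖ := h a b ha hb
  constructor <;> linarith [h1.1, h1.2, norm_nonneg (a - b)]

/-- Lower bound for the area of small discs. -/
lemma area_disc (F : Facts e) (hE : finrank ℝ E = 2) : ∃ c > 0, ∃ ρ > 0, ∀ (y : M) (δ : ℝ),
    0 ≤ δ → δ ≤ ρ → ENNReal.ofReal (c * δ ^ 2) ≤ μHE[2] (closedBall y δ) := by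
  suffices h : ∃ c > 0, ∃ ρ > 0, ∀ y ∈ (univ : Set M), ∀ δ : ℝ,
      0 ≤ δ → δ ≤ ρ → ENNReal.ofReal (c * δ ^ 2) ≤ μHE[2] (closedBall y δ) by
    obtain ⟨c, hc, ρ, hρ, h⟩ := h
    exact ⟨c, hc, ρ, hρ, fun y => h y (mem_univ y)⟩
  refine isCompact_univ.induction_on (p := fun S : Set M => ∃ c > 0, ∃ ρ > 0, ∀ y ∈ S, ∀ δ : ℝ,
      0 ≤ δ → δ ≤ ρ → ENNReal.ofReal (c * δ ^ 2) ≤ μHE[2] (closedBall y δ))
    ⟨1, one_pos, 1, one_pos, by simp⟩ ?_ ?_ ?_
  · rintro S T hST ⟨c, hc, ρ, hρ, h⟩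
    exact ⟨c, hc, ρ, hρ, fun y hy => h y (hST hy)⟩
  · rintro S T ⟨c, hc, ρ, hρ, h⟩ ⟨c', hc', ρ', hρ', h'⟩
    refine ⟨min c c', lt_min hc hc', min ρ ρ', lt_min hρ hρ', fun y hy δ h0 h1 => ?_⟩
    rcases hy with hy | hy
    · refine le_trans (ENNReal.ofReal_le_ofReal ?_) (h y hy δ h0 (h1.trans (min_le_left _ _)))
      gcongr
      exact min_le_left _ _
    · refine le_trans (ENNReal.ofReal_le_ofReal ?_) (h' y hy δ h0 (h1.trans (min_le_right _ _)))
      gcongr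
      exact min_le_right _ _
  · intro x _
    obtain ⟨ρ, hρ, h⟩ := chart F x
    obtain ⟨c, hc, C, -, -, hl⟩ := area_chart (V := TangentSpace 𝓘(ℝ, E) x) hE h
    refine ⟨ball x (ρ / 2), mem_nhdsWithin_of_mem_nhds (ball_mem_nhds x (half_pos hρ)), c / 4,
      by positivity, ρ / 2, half_pos hρ, fun y hy δ h0 h1 => ?_⟩
    obtain ⟨a, rfl, hd⟩ := F.hopfRinow x y
    rw [mem_ball', hd] at hy
    have hsub : closedBall a (δ / 2) ⊆ ball 0 ρ := fun b hb => by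
      rw [mem_closedBall, dist_eq_norm] at hb
      rw [mem_ball_zero_iff]
      linarith [norm_le_norm_add_norm_sub' b a]
    have h2 := hl a (δ / 2) (by positivity) hsub
    rw [show c * (δ / 2) ^ 2 = c / 4 * δ ^ 2 by ring] at h2
    refine h2.trans (measure_mono ?_)
    rintro _ ⟨b, hb, rfl⟩
    have h3 := (h b a (by simpa using hsub hb) (by linarith)).2
    rw [mem_closedBall, dist_eq_norm] at hb
    rw [mem_closedBall]
    linarith

lemma area_finite (F : Facts e) (hE : finrank ℝ E = 2) :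
    IsFiniteMeasure (μHE[2] : Measure M) := by
  have : IsLocallyFiniteMeasure (μHE[2] : Measure M) := ⟨fun x => by
    obtain ⟨ρ, hρ, h⟩ := chart F x
    obtain ⟨c, -, C, -, hu, -⟩ := area_chart (V := TangentSpace 𝓘(ℝ, E) x) hE h
    refine ⟨ball x ρ, ball_mem_nhds x hρ, ?_⟩
    refine lt_of_le_of_lt ((measure_mono fun y hy => ?_).trans
      (hu (ball 0 ρ) 0 ρ Subset.rfl hρ.le ball_subset_closedBall)) ENNReal.ofReal_lt_top
    obtain ⟨a, rfl, hd⟩ := F.hopfRinow x y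
    rw [mem_ball', hd] at hy
    exact ⟨a, by simpa using hy, rfl⟩⟩
  exact ⟨isCompact_univ.measure_lt_top⟩

lemma area_openPos (F : Facts e) (hE : finrank ℝ E = 2) :
    (μHE[2] : Measure M).IsOpenPosMeasure := ⟨fun U hU ⟨x, hx⟩ => by
  obtain ⟨c, hc, ρ, hρ, h⟩ := area_disc F hE
  obtain ⟨r, hr, hr'⟩ := Metric.nhds_basis_closedBall.mem_iff.1 (hU.mem_nhds hx)
  have h1 := h x (min r ρ) (lt_min hr hρ).le (min_le_right _ _)
  have h2 := h1.trans (measure_mono ((closedBall_subset_closedBall (min_le_left _ _)).trans hr'))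
  refine (lt_of_lt_of_le (ENNReal.ofReal_pos.2 ?_) h2).ne'
  have := lt_min hr hρ
  positivity⟩

/-- Thin level strips of `c(., y) - c(., z)` have small area, cut locus included. -/
lemma area_level (F : Facts e) (hE : finrank ℝ E = 2) {y z : M} (hyz : y ≠ z) :
    ∃ C ≥ 0, ∀ s η : ℝ, 0 < η → η ≤ 1 →
      μHE[2] {x | |cost x y - cost x z - s| ≤ η} ≤ ENNReal.ofReal (C * η) := by
  have hK : IsClosed {p : M × M × M | Mid p.1 p.2.1 y ∧ Mid p.1 p.2.2 z} :=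
    (isClosed_mid continuous_fst continuous_snd.fst continuous_const).inter
      (isClosed_mid continuous_fst continuous_snd.snd continuous_const)
  suffices h : ∃ C ≥ 0, ∀ s η : ℝ, 0 < η → η ≤ 1 →
      μHE[2] {x | ∃ w w', (x, w, w') ∈ {p : M × M × M | Mid p.1 p.2.1 y ∧ Mid p.1 p.2.2 z} ∧
        |cost x y - cost x z - s| ≤ η} ≤ ENNReal.ofReal (C * η) by
    obtain ⟨C, hC, h⟩ := h
    refine ⟨C, hC, fun s η h0 h1 => le_trans (measure_mono fun x hx => ?_) (h s η h0 h1)⟩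
    obtain ⟨w, hw⟩ := exists_mid F x y
    obtain ⟨w', hw'⟩ := exists_mid F x z
    exact ⟨w, w', ⟨hw, hw'⟩, hx⟩
  refine hK.isCompact.induction_on (p := fun U : Set (M × M × M) => ∃ C ≥ 0, ∀ s η : ℝ, 0 < η →
      η ≤ 1 → μHE[2] {x | ∃ w w', (x, w, w') ∈ U ∧ |cost x y - cost x z - s| ≤ η} ≤
        ENNReal.ofReal (C * η)) ⟨0, le_rfl, by simp⟩ ?_ ?_ ?_
  · rintro S T hST ⟨C, hC, h⟩
    refine ⟨C, hC, fun s η h0 h1 => le_trans (measure_mono ?_) (h s η h0 h1)⟩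
    rintro x ⟨w, w', hw, hx⟩
    exact ⟨w, w', hST hw, hx⟩
  · rintro S T ⟨C, hC, h⟩ ⟨C', hC', h'⟩
    refine ⟨C + C', by positivity, fun s η h0 h1 => ?_⟩
    rw [add_mul, ENNReal.ofReal_add (by positivity) (by positivity)]
    refine le_trans (measure_mono ?_) ((measure_union_le _ _).trans
      (add_le_add (h s η h0 h1) (h' s η h0 h1)))
    rintro x ⟨w, w', hw | hw, hx⟩
    · exact Or.inl ⟨w, w', hw, hx⟩
    · exact Or.inr ⟨w, w', hw, hx⟩
  · rintro ⟨x, w, w'⟩ ⟨hw, hw'⟩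
    obtain ⟨V, hV, hVy, hVw⟩ := hw.vec F
    obtain ⟨V', hV', hVz, hVw'⟩ := hw'.vec F
    simp only at hV hV' hVy hVz hVw hVw'
    have hu : V - V' ≠ 0 := fun h => hyz (by rw [← hVy, ← hVz, sub_eq_zero.1 h])
    have hu0 : 0 < ‖V - V'‖ := norm_pos_iff.2 hu
    obtain ⟨k, hk, hk'⟩ := exists_normal (V := TangentSpace 𝓘(ℝ, E) x) hE hu
    obtain ⟨ρ₀, hρ₀, h₀⟩ := chart F x
    obtain ⟨c, -, C, hC, hup, -⟩ := area_chart (V := TangentSpace 𝓘(ℝ, E) x) hE h₀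
    obtain ⟨ρ₁, hρ₁, h₁⟩ := onesided F hV (ε := ‖V - V'‖ / 4) (by positivity)
    obtain ⟨ρ₂, hρ₂, h₂⟩ := onesided F hV' (ε := ‖V - V'‖ / 4) (by positivity)
    rw [hVw] at h₁
    rw [hVw'] at h₂
    set ρ := min ρ₀ (min ρ₁ ρ₂) with hρ
    have hρp : 0 < ρ := lt_min hρ₀ (lt_min hρ₁ hρ₂)
    have l0 : ρ ≤ ρ₀ := min_le_left _ _
    have l1 : ρ ≤ ρ₁ := (min_le_right _ _).trans (min_le_left _ _)
    have l2 : ρ ≤ ρ₂ := (min_le_right _ _).trans (min_le_right _ _)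
    refine ⟨_ ∩ ball (x, w, w') ρ, inter_mem_nhdsWithin _ (ball_mem_nhds _ hρp),
      (2 * ρ + 1) * C * (4 / ‖V - V'‖ + 2) ^ 2, by positivity, fun s η h0 h1 => ?_⟩
    set X := {x' | ∃ w₁ w₂, (x', w₁, w₂) ∈ {p : M × M × M | Mid p.1 p.2.1 y ∧ Mid p.1 p.2.2 z} ∩
      ball (x, w, w') ρ ∧ |cost x' y - cost x' z - s| ≤ η} with hX
    refine le_trans (measure_mono (t := e x '' {a | ‖a‖ < ρ ∧ e x a ∈ X}) fun x' hx' => ?_)
      (area_strip hρp hC (by positivity) h0 h1 (fun S a r hS => hup S a r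
        (hS.trans (ball_subset_ball l0))) hk (fun a ha => by simpa using ha.1) ?_)
    · obtain ⟨a, rfl, hd⟩ := F.hopfRinow x x'
      refine ⟨a, ⟨?_, hx'⟩, rfl⟩
      obtain ⟨w₁, w₂, ⟨-, hb⟩, -⟩ := hx'
      simp only [mem_ball', Prod.dist_eq, max_lt_iff] at hb
      exact hd ▸ hb.1
    · rintro a ⟨ha, a₁, a₂, ⟨⟨ma₁, ma₂⟩, da⟩, ga⟩ b ⟨hb, b₁, b₂, ⟨⟨mb₁, mb₂⟩, db⟩, gb⟩ hkη
      simp only [mem_ball', Prod.dist_eq, max_lt_iff] at da db ma₁ ma₂ mb₁ mb₂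
      have i1 := h₁ a b (ha.trans_le l1) (hb.trans_le l1) _ _ ma₁ (da.2.1.trans_le l1)
      have i2 := h₁ b a (hb.trans_le l1) (ha.trans_le l1) _ _ mb₁ (db.2.1.trans_le l1)
      have i3 := h₂ a b (ha.trans_le l2) (hb.trans_le l2) _ _ ma₂ (da.2.2.trans_le l2)
      have i4 := h₂ b a (hb.trans_le l2) (ha.trans_le l2) _ _ mb₂ (db.2.2.trans_le l2)
      rw [← neg_sub b a, inner_neg_right, norm_neg] at i2 i4
      have i5 := hk' (b - a)
      rw [inner_sub_left] at i5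
      rw [abs_le] at ga gb
      have i6 : |inner ℝ V (b - a) - inner ℝ V' (b - a)| ≤ 2 * η + ‖V - V'‖ * ‖b - a‖ / 2 := by
        rw [abs_le]
        constructor <;> linarith [ga.1, ga.2, gb.1, gb.2]
      have i7 := mul_le_mul_of_nonneg_left hkη hu0.le
      have i8 : ‖V - V'‖ * ‖b - a‖ ≤ ‖V - V'‖ * ((4 / ‖V - V'‖ + 2) * η) := by
        have : ‖V - V'‖ * ((4 / ‖V - V'‖ + 2) * η) = 4 * η + 2 * (‖V - V'‖ * η) := by
          field_simp
        linarith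
      exact le_of_mul_le_mul_left i8 hu0

end Vale.Agent.N234
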